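import Vale.Agent.P330.H743.Eolc
import Vale.Agent.P330.H874.MPInst
import Vale.Agent.P330.H633.ProgS

/-!
# The machine of an instance of End-of-Line

`mpI I k a κ`: the machine of the NAND program `progS I (2 ^ (k - 2)) (2 ^ a)`.
`mpI_good`: it is good. `computes_mpI`: it computes the two circuits of the instance.
-/

namespace Vale.Agent.P330.H743

open H16 H874 H633

/-- The NAND program of the instance, for `2 ^ (k - 2)` cells, and outputs in blocks of length
`2 ^ a`. -/
abbrev prI (I : EndOfLine) (k a : ℕ) : List (ℕ × ℕ) := progS I (2 ^ (k - 2)) (2 ^ a)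

/-- The machine of the instance. -/
def mpI (I : EndOfLine) (k a κ : ℕ) : MP := mpOf I.n (prI I k a) k κ (offB k a)

/-- The sizes are large enough. -/
structure Fits (I : EndOfLine) (k a : ℕ) : Prop where
  n_le : I.n ≤ 2 ^ a
  le : I.n + (pN I).length + 2 * 2 ^ a ≤ 2 ^ (k - 2)

variable {I : EndOfLine} {k a κ : ℕ}

theorem isProg_prI (I : EndOfLine) (k a : ℕ) : IsProg I.n (prI I k a) :=
  ⟨I.one_le, fun i h => progS_below (I := I) i h⟩

theorem Fits.two_lt (h : Fits I k a) : 2 ^ (a + 1) < 2 ^ (k - 2) := by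
  have h1 := h.le
  have h2 := I.one_le
  rw [pow_succ]
  omega

theorem Fits.a_lt (h : Fits I k a) : a + 1 < k - 2 :=
  (Nat.pow_lt_pow_iff_right (by norm_num)).1 h.two_lt

theorem Fits.pow_k (h : Fits I k a) : 2 ^ k = 4 * 2 ^ (k - 2) := by
  have := h.a_lt
  conv_lhs => rw [show k = k - 2 + 2 by omega, pow_succ, pow_succ]
  ring

theorem Fits.four_n_le (h : Fits I k a) : 4 * I.n ≤ 2 ^ k := by
  have h1 := h.le
  rw [h.pow_k]
  omega

theorem Fits.n_le_outB (h : Fits I k a) (z : Bool) : I.n ≤ outB k a z := by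
  have h1 := h.le
  unfold outB
  split_ifs <;> omega

theorem Fits.mono {k' : ℕ} (h : Fits I k a) (hk : k ≤ k') : Fits I k' a :=
  ⟨h.n_le, h.le.trans (Nat.pow_le_pow_right (by norm_num) (by omega))⟩

/-- The smallest `a`. -/
def aI (I : EndOfLine) : ℕ := Nat.clog 2 I.n

/-- The smallest `k`. -/
def kI (I : EndOfLine) : ℕ := Nat.clog 2 (I.n + (pN I).length + 2 * 2 ^ aI I) + 2

theorem fits_kI (I : EndOfLine) : Fits I (kI I) (aI I) :=
  ⟨Nat.le_pow_clog (by norm_num) _, Nat.le_pow_clog (by norm_num) _⟩

theorem fits (I : EndOfLine) {k : ℕ} (hk : kI I ≤ k) : Fits I k (aI I) := (fits_kI I).mono hk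

theorem two_pow_clog_lt {m : ℕ} (hm : 1 ≤ m) : 2 ^ Nat.clog 2 m < 2 * m := by
  rcases hm.eq_or_lt with rfl | h
  · simp
  · have h1 := Nat.pow_pred_clog_lt_self (b := 2) (by norm_num) h
    have h2 : 0 < Nat.clog 2 m := Nat.clog_pos (by norm_num) h
    have h3 : 2 ^ Nat.clog 2 m = 2 * 2 ^ (Nat.clog 2 m).pred := by
      conv_lhs => rw [← Nat.succ_pred_eq_of_pos h2, pow_succ]
      ring
    omega

/-- The number of slots is polynomial in the size of the instance. -/
theorem two_pow_kI_lt (I : EndOfLine) :
    2 ^ kI I < 8 * (7 * I.n + 3 * (I.S.gates.length + I.P.gates.length)) := by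
  have h0 := I.one_le
  have h1 : 2 ^ aI I < 2 * I.n := two_pow_clog_lt h0
  have h2 := pN_length_le I
  have h3 := two_pow_clog_lt (m := I.n + (pN I).length + 2 * 2 ^ aI I) (by omega)
  have h4 : 2 ^ kI I = 4 * 2 ^ Nat.clog 2 (I.n + (pN I).length + 2 * 2 ^ aI I) := by
    unfold kI
    rw [pow_add]
    ring
  omega

/-- **The machine of the instance is good.** -/
theorem mpI_good (h : Fits I k a) (hκ : k + 3 ≤ κ) : (mpI I k a κ).Good :=
  mpOf_good (isProg_prI I k a) (by have := h.a_lt; omega) hκ h.four_n_le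
    fun z => offB_lt h.a_lt.le z

theorem word_nx (h : Fits I k a) (z : Bool) (x : ℕ → Bool) :
    word I.n ((mpI I k a κ).nx z x) = (Computes.circ I z).eval (word I.n x) := by
  have hP := isProg_prI I k a
  have hlen : (word I.n x).length = I.n := word_length _ _
  have hv := isVal_cellV hP x
  have hin : ∀ c < I.n, cellV I.n (prI I k a) x c = x c := fun c hc => cellV_in hc
  have hin' : ∀ c < I.n, cellV I.n (prI I k a) x c = (word I.n x).getD c false := by
    intro c hc
    rw [hin c hc, word, List.getD_eq_getElem?_getD, List.getElem?_map, List.getElem?_range hc]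
    rfl
  have key : ∀ i < I.n, (mpI I k a κ).nx z x i =
      ((Computes.circ I z).eval (word I.n x)).getD i false := by
    intro i hi
    have h1 : (mpI I k a κ).nx z x i = cellV I.n (prI I k a) x (outB k a z + i) :=
      mpOf_nx hP h.a_lt.le h.n_le hv hin z hi (h.n_le_outB z)
    have h2 := progS_val (I := I) (M := 2 ^ (k - 2)) (n1 := 2 ^ a) h.n_le h.le hlen hin'
      (fun c hc _ => hv c hc) hi
    rw [h1]
    cases z
    · exact h2.1
    · exact h2.2
  have hl : ((Computes.circ I z).eval (word I.n x)).length = I.n := by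
    cases z
    · show (I.S.eval _).length = _
      unfold BoolCircuit.eval
      rw [List.length_map]
      exact I.circuit_S.1
    · show (I.P.eval _).length = _
      unfold BoolCircuit.eval
      rw [List.length_map]
      exact I.circuit_P.1
  refine List.ext_getElem (by rw [word_length, hl]) fun i h1 h2 => ?_
  rw [word_length] at h1
  have h3 := key i h1
  rw [List.getD_eq_getElem _ _ h2] at h3
  rw [← h3]
  simp [word]

/-- **The machine computes the two circuits of the instance.** -/
theorem computes_mpI (h : Fits I k a) : Computes (mpI I k a κ) I where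
  n_eq := rfl
  S_eq x := word_nx h false x
  P_eq x := word_nx h true x

end Vale.Agent.P330.H743
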