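import Vale.Agent.P330.H743.Eolc
import Vale.Agent.P330.H16.Top
import Vale.Agent.P330.H780.Sem

/-!
# Base contents of the content program

`lst`: the list of the base contents in the order of `PP.tup`; `ofX`: the base contents of a tuple;
`ofC`: the base contents of `Cont`; `Ok`: the checks of the program, for arbitrary base contents, in
closed form.  `Ok.chk`: base contents with the checks are the base contents of a `Cont` with
`MP.Chk`.  `ok_of_valid`: the converse, with exact products.
-/

namespace Vale.Agent.P330.H743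

open Finset H16 Q

variable {κ : ℕ} {F : Type}

/-! ### Lists of base contents -/

/-- The list of the base contents. -/
def lst (k L : ℕ) (B : BC κ F) : List (Ct κ F) :=
  B.z :: ((List.range (k + 1)).map B.t ++ (B.w false :: B.w true :: ((List.range L).map (B.P false) ++
    ((List.range L).map (B.P true) ++ [B.Q false, B.Q true]))))

/-- The number of the base contents. -/
def nB (k L : ℕ) : ℕ := k + 2 * L + 6

variable {k L : ℕ}

theorem lst_length (B : BC κ F) : (lst k L B).length = nB k L := by
  simp only [lst, nB, List.length_cons, List.length_append, List.length_map, List.length_range,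
    List.length_nil]
  omega

theorem tup_map (p : PP F) (σ : Nm → Ct κ F) (a : Nm) (t : ℕ → Nm) (w : Bool → Nm)
    (P : Bool → ℕ → Nm) (Q : Bool → Nm) :
    (p.tup a t w P Q).map σ =
      lst p.k p.L ⟨σ a, fun j => σ (t j), fun b => σ (w b), fun b s => σ (P b s),
        fun b => σ (Q b)⟩ := by
  simp only [PP.tup, lst, List.map_cons, List.map_append, List.map_map, List.map_nil]
  rfl

/-- Equality of base contents in the range of the program. -/
structure Agr (k L : ℕ) (B B' : BC κ F) : Prop where
  z : B.z = B'.z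
  t : ∀ j ≤ k, B.t j = B'.t j
  w : ∀ b, B.w b = B'.w b
  P : ∀ b, ∀ s < L, B.P b s = B'.P b s
  Q : ∀ b, B.Q b = B'.Q b

theorem Agr.lst_eq {B B' : BC κ F} (h : Agr k L B B') : lst k L B = lst k L B' := by
  unfold lst
  have h1 : (List.range (k + 1)).map B.t = (List.range (k + 1)).map B'.t :=
    List.map_congr_left fun j hj => h.t j (by rw [List.mem_range] at hj; omega)
  have h2 : ∀ b, (List.range L).map (B.P b) = (List.range L).map (B'.P b) := fun b =>
    List.map_congr_left fun s hs => h.P b s (List.mem_range.1 hs)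
  rw [h.z, h1, h.w, h.w, h2, h2, h.Q, h.Q]

section getD

variable [Zero F] (B : BC κ F)

theorem lst_z : (lst k L B).getD 0 0 = B.z := rfl

theorem lst_t {j : ℕ} (hj : j ≤ k) : (lst k L B).getD (1 + j) 0 = B.t j := by
  rw [add_comm]
  simp only [lst, List.getD_eq_getElem?_getD, List.getElem?_cons_succ]
  rw [List.getElem?_append_left (by simp only [List.length_map, List.length_range]; omega), List.getElem?_map, List.getElem?_range (by omega)]
  rfl

theorem lst_w (b : Bool) : (lst k L B).getD (k + 2 + b.toNat) 0 = B.w b := by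
  simp only [lst, List.getD_eq_getElem?_getD]
  cases b
  · show (_ :: _)[k + 1 + 1]?.getD 0 = _
    rw [List.getElem?_cons_succ, List.getElem?_append_right (by simp)]
    simp
  · show (_ :: _)[k + 2 + 1]?.getD 0 = _
    rw [List.getElem?_cons_succ, List.getElem?_append_right (by simp)]
    simp

theorem lst_P0 {s : ℕ} (hs : s < L) : (lst k L B).getD (k + 4 + s) 0 = B.P false s := by
  simp only [lst, List.getD_eq_getElem?_getD]
  rw [show k + 4 + s = (k + 1 + (s + 2)) + 1 by omega, List.getElem?_cons_succ,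
    List.getElem?_append_right (by simp only [List.length_map, List.length_range]; omega)]
  simp only [List.length_map, List.length_range, Nat.add_sub_cancel_left, List.getElem?_cons_succ]
  rw [List.getElem?_append_left (by simp only [List.length_map, List.length_range]; omega), List.getElem?_map, List.getElem?_range hs]
  rfl

theorem lst_P1 {s : ℕ} (hs : s < L) : (lst k L B).getD (k + 4 + L + s) 0 = B.P true s := by
  simp only [lst, List.getD_eq_getElem?_getD]
  rw [show k + 4 + L + s = (k + 1 + (L + s + 2)) + 1 by omega, List.getElem?_cons_succ,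
    List.getElem?_append_right (by simp only [List.length_map, List.length_range]; omega)]
  simp only [List.length_map, List.length_range, Nat.add_sub_cancel_left, List.getElem?_cons_succ]
  rw [List.getElem?_append_right (by simp)]
  simp only [List.length_map, List.length_range, Nat.add_sub_cancel_left]
  rw [List.getElem?_append_left (by simp only [List.length_map, List.length_range]; omega), List.getElem?_map, List.getElem?_range hs]
  rfl

theorem lst_Q (b : Bool) : (lst k L B).getD (k + 4 + 2 * L + b.toNat) 0 = B.Q b := by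
  simp only [lst, List.getD_eq_getElem?_getD]
  rw [show k + 4 + 2 * L + b.toNat = (k + 1 + (L + (L + b.toNat) + 2)) + 1 by omega,
    List.getElem?_cons_succ, List.getElem?_append_right (by simp only [List.length_map, List.length_range]; omega)]
  simp only [List.length_map, List.length_range, Nat.add_sub_cancel_left, List.getElem?_cons_succ]
  rw [List.getElem?_append_right (by simp)]
  simp only [List.length_map, List.length_range, Nat.add_sub_cancel_left]
  rw [List.getElem?_append_right (by simp)]
  simp only [List.length_map, List.length_range, Nat.add_sub_cancel_left]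
  cases b <;> rfl

/-- The base contents of a list. -/
def ofL (k L : ℕ) (l : List (Ct κ F)) : BC κ F where
  z := l.getD 0 0
  t j := if j ≤ k then l.getD (1 + j) 0 else 0
  w b := l.getD (k + 2 + b.toNat) 0
  P b s := if s < L then l.getD (k + 4 + (if b then L else 0) + s) 0 else 0
  Q b := l.getD (k + 4 + 2 * L + b.toNat) 0

theorem agr_ofL_lst : Agr k L (ofL k L (lst k L B)) B where
  z := rfl
  t j hj := by
    show (if j ≤ k then _ else _) = _
    rw [if_pos hj, lst_t B hj]
  w b := lst_w B b
  P b s hs := by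
    show (if s < L then _ else _) = _
    rw [if_pos hs]
    cases b
    · exact lst_P0 B hs
    · exact lst_P1 B hs
  Q b := lst_Q B b

theorem lst_ofL {l : List (Ct κ F)} (hl : l.length = nB k L) : lst k L (ofL k L l) = l := by
  have key : ∀ i < nB k L, (lst k L (ofL k L l)).getD i 0 = l.getD i 0 := by
    intro i hi
    unfold nB at hi
    rcases Nat.eq_zero_or_pos i with h0 | h0
    · subst h0; rfl
    rcases Nat.lt_or_ge i (k + 2) with h1 | h1
    · obtain ⟨j, rfl⟩ : ∃ j, i = 1 + j := ⟨i - 1, by omega⟩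
      rw [lst_t _ (by omega)]
      show (if j ≤ k then _ else _) = _
      rw [if_pos (by omega)]
    rcases Nat.lt_or_ge i (k + 4) with h2 | h2
    · rcases (show i = k + 2 + false.toNat ∨ i = k + 2 + true.toNat by
        simp only [Bool.toNat_false, Bool.toNat_true]; omega) with h | h
      · rw [h, lst_w]; rfl
      · rw [h, lst_w]; rfl
    rcases Nat.lt_or_ge i (k + 4 + L) with h3 | h3
    · obtain ⟨s, rfl⟩ : ∃ s, i = k + 4 + s := ⟨i - (k + 4), by omega⟩
      rw [lst_P0 _ (by omega)]
      show (if s < L then _ else _) = _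
      rw [if_pos (by omega)]
      rfl
    rcases Nat.lt_or_ge i (k + 4 + L + L) with h4 | h4
    · obtain ⟨s, rfl⟩ : ∃ s, i = k + 4 + L + s := ⟨i - (k + 4 + L), by omega⟩
      rw [lst_P1 _ (by omega)]
      show (if s < L then _ else _) = _
      rw [if_pos (by omega)]
      rfl
    · rcases (show i = k + 4 + 2 * L + false.toNat ∨ i = k + 4 + 2 * L + true.toNat by
        simp only [Bool.toNat_false, Bool.toNat_true]; omega) with h | h
      · rw [h, lst_Q]; rfl
      · rw [h, lst_Q]; rfl
  refine List.ext_getElem (by rw [lst_length, hl]) fun i h1 h2 => ?_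
  have := key i (by rw [← hl]; exact h2)
  rwa [List.getD_eq_getElem _ _ h1, List.getD_eq_getElem _ _ h2] at this

end getD

/-! ### The base contents of `Cont` -/

section

variable [Field F]

/-- The base contents of `c`. -/
def ofC (c : Cont κ F) : BC κ F :=
  ⟨fun _ => bF F c.z, fun j _ => bF F (c.t.testBit j), c.w, c.P, c.Q⟩

/-- The contents in the range of the machine. -/
structure Nice (k L : ℕ) (c : Cont κ F) : Prop where
  t_le : c.t ≤ 2 ^ k
  P_zero : ∀ b s, L ≤ s → c.P b s = 0

theorem bF_inj' {a b : Bool} (h : bF F a = bF F b) : a = b := by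
  cases a <;> cases b <;> simp_all [bF]

theorem Nice.inj {c c' : Cont κ F} (h : Nice k L c) (h' : Nice k L c')
    (hl : Agr k L (ofC c) (ofC c')) : c = c' := by
  have ht : ∀ (c : Cont κ F), Nice k L c → ∀ j, k < j → c.t.testBit j = false := by
    intro c h j hj
    refine Nat.testBit_lt_two_pow (h.t_le.trans_lt (Nat.pow_lt_pow_right (by norm_num) hj))
  refine Cont.ext ?_ ?_ ?_ ?_ ?_
  · exact bF_inj' (congrFun hl.z 0)
  · apply Nat.eq_of_testBit_eq
    intro j
    rcases Nat.lt_or_ge k j with hj | hj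
    · rw [ht c h j hj, ht c' h' j hj]
    · exact bF_inj' (congrFun (hl.t j hj) 0)
  · funext b; exact hl.w b
  · funext b s
    rcases Nat.lt_or_ge s L with hs | hs
    · exact hl.P b s hs
    · rw [h.P_zero b s hs, h'.P_zero b s hs]
  · funext b; exact hl.Q b

/-- The tuple of base contents of `c`. -/
def enc (k L : ℕ) (c : Cont κ F) : Fin (nB k L) → Ct κ F := fun i => (lst k L (ofC c)).getD i 0

theorem ofFn_getD {l : List (Ct κ F)} (hl : l.length = nB k L) :
    List.ofFn (fun i : Fin (nB k L) => l.getD i 0) = l := by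
  refine List.ext_getElem (by rw [List.length_ofFn, hl]) fun i h1 h2 => ?_
  rw [List.getElem_ofFn, List.getD_eq_getElem _ _ h2]

theorem ofFn_enc (c : Cont κ F) : List.ofFn (enc k L c) = lst k L (ofC c) :=
  ofFn_getD (lst_length _)

theorem Nice.enc_inj {c c' : Cont κ F} (h : Nice k L c) (h' : Nice k L c')
    (he : enc k L c = enc k L c') : c = c' := by
  refine h.inj h' ?_
  have h1 : lst k L (ofC c) = lst k L (ofC c') := by rw [← ofFn_enc, ← ofFn_enc, he]
  have h2 := agr_ofL_lst (k := k) (L := L) (ofC c)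
  have h3 := agr_ofL_lst (k := k) (L := L) (ofC c')
  rw [h1] at h2
  exact ⟨h2.z.symm.trans h3.z, fun j hj => (h2.t j hj).symm.trans (h3.t j hj),
    fun b => (h2.w b).symm.trans (h3.w b), fun b s hs => (h2.P b s hs).symm.trans (h3.P b s hs),
    fun b => (h2.Q b).symm.trans (h3.Q b)⟩

/-- A tuple whose base contents are those of `c`. -/
theorem eq_enc {x : Fin (nB k L) → Ct κ F} {B : BC κ F} (hx : List.ofFn x = lst k L B)
    {c : Cont κ F} (hB : Agr k L B (ofC c)) : x = enc k L c := by
  have h1 : List.ofFn x = List.ofFn (enc k L c) := by rw [hx, hB.lst_eq, ofFn_enc]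
  exact List.ofFn_injective h1

end

/-! ### The checks -/

section checks

variable (M : MP) [Field F] (R : RSys M.κ F) (B : BC M.κ F)

/-- The coefficient of `z = b`. -/
def zb (b : Bool) : F := if b then B.z 0 else 1 + B.z 0

/-- The bits of the height of bank `b`. -/
def hb (b : Bool) (j : ℕ) : F := zb M B (!b) * B.t j 0 + if j = M.k then zb M B b else 0

/-- The content at the input slots of bank `b`. -/
def inpB (b : Bool) : Ct M.κ F := fun x =>
  zb M B b * B.w b x + zb M B (!b) * tr (pt M.κ (M.off (!b))) (B.w (!b)) x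

/-- The right hand side of the rule of bank `b`. -/
def VB (b : Bool) : Ct M.κ F := fun x =>
  pre (4 * M.n) (msk (fun x => decide (x % 4 = 0)) fun y =>
      inpB M B b y + M.fw (B.w b) (B.P b) M.L y) x +
    msk (fun x => decide (x % 4 = 0)) (M.fw (B.w b) (B.P b) M.L) x +
    msk (fun x => decide (x % 4 = 1)) (M.fw (B.w b) (B.P b) M.L) x +
    msk isNand (fun y => 1 + pre (2 ^ M.k) (B.Q b) y) x

/-- The equations of the program, in closed form. -/
structure Ok : Prop where
  zc : B.z = fun _ => B.z 0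
  zz : B.z 0 * B.z 0 = B.z 0
  tc : ∀ j ≤ M.k, B.t j = fun _ => B.t j 0
  tt : ∀ j ≤ M.k, B.t j 0 * B.t j 0 = B.t j 0
  tk : ∀ j < M.k, B.t M.k 0 * B.t j 0 = 0
  nP : ∀ b, ∀ s < M.L, ∀ j, M.k < j → j < M.κ → ∀ x, bx j x * invOp R (B.P b s) x = 0
  nQ : ∀ b, ∀ j, M.k < j → j < M.κ → ∀ x, bx j x * invOp R (B.Q b) x = 0
  hw : ∀ b, pre (2 ^ M.k) (B.w b) = B.w b
  rule : ∀ b, B.w b = preOp M.k (hb M B b) (VB M B b)
  bool : ∀ b x, zb M B b * pre (4 * M.n) (msk isNand fun y => 1 + B.w b y +
    tr (e M.κ 1) (B.w b) y) x = 0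

/-- The product of stage `s` according to the program. -/
def prP (b : Bool) (s : ℕ) : Ct M.κ F := M.prodP R (B.w b) (B.P b) s

/-- The products of the program hold at most points. -/
structure OkN : Prop where
  P : ∀ b, ∀ s < M.L, MP.Near (B.P b s) (M.prodP R (B.w b) (B.P b) s)
  Q : ∀ b, MP.Near (B.Q b) (M.prodQ R (B.w b))

/-- The products of the program hold. -/
structure OkE : Prop where
  P : ∀ b, ∀ s < M.L, B.P b s = M.prodP R (B.w b) (B.P b) s
  Q : ∀ b, B.Q b = M.prodQ R (B.w b)

variable {M R B}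

theorem zb_ofC (hκ : 0 < M.κ) (R : RSys M.κ F) (c : Cont M.κ F) (b : Bool) :
    zb M (ofC c) b = bF F (decide (b = c.z)) := by
  have h2 := R.two hκ
  show (if b then bF F c.z else 1 + bF F c.z) = _
  cases b <;> cases c.z <;> simp [bF, h2]

theorem fw_congr {w w' : Ct M.κ F} {P P' : ℕ → Ct M.κ F} (hw : w = w') {t : ℕ}
    (hP : ∀ s < t, P s = P' s) : M.fw w P t = M.fw w' P' t := by
  induction t with
  | zero => exact hw
  | succ t ih =>
    funext x
    simp only [MP.fw]
    rw [ih fun s hs => hP s (by omega), hP t (by omega)]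

theorem hb_ofC (hκ : 0 < M.κ) (R : RSys M.κ F) (c : Cont M.κ F) (b : Bool) {j : ℕ}
    (_hj : j < M.k + 1) : hb M (ofC c) b j = bF F ((M.ht c b).testBit j) := by
  unfold hb MP.ht
  rw [zb_ofC hκ R, zb_ofC hκ R]
  show bF F (decide ((!b) = c.z)) * bF F (c.t.testBit j) + _ = _
  by_cases h : b = c.z
  · have h1 : ¬ (!b) = c.z := by rw [← h]; cases b <;> simp
    rw [if_pos h, decide_eq_false h1, decide_eq_true h, Nat.testBit_two_pow]
    by_cases hj : j = M.k
    · rw [if_pos hj, hj]; simp [bF]
    · have : ¬ M.k = j := fun h => hj h.symm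
      rw [if_neg hj]; simp [bF, this]
  · have h1 : (!b) = c.z := by
      revert h; cases b <;> cases c.z <;> simp
    rw [if_neg h, decide_eq_true h1, decide_eq_false h]
    by_cases hj : j = M.k
    · rw [if_pos hj]; simp [bF]
    · rw [if_neg hj]; simp [bF]

theorem inpB_ofC (hκ : 0 < M.κ) (R : RSys M.κ F) (c : Cont M.κ F) (b : Bool) :
    inpB M (ofC c) b = M.inp c b := by
  funext x
  unfold inpB MP.inp
  rw [zb_ofC hκ R, zb_ofC hκ R]
  by_cases h : b = c.z
  · have h1 : ¬ (!b) = c.z := by rw [← h]; cases b <;> simp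
    rw [if_pos h, decide_eq_false h1, decide_eq_true h]
    simp [bF]; rfl
  · have h1 : (!b) = c.z := by
      revert h; cases b <;> cases c.z <;> simp
    rw [if_neg h, decide_eq_true h1, decide_eq_false h, h1]
    simp [bF]; rfl

theorem VB_ofC (hκ : 0 < M.κ) (R : RSys M.κ F) (c : Cont M.κ F) (b : Bool) :
    VB M (ofC c) b = M.rhs c b (M.inp c b) := by
  funext x
  unfold VB MP.rhs
  rw [inpB_ofC hκ R]
  exact (msk_isCopy_eq M R hκ (M.inp c b) (M.fw (c.w b) (c.P b) M.L) _ x).symm

theorem preOp_ofC (hM : M.Good) (R : RSys M.κ F) {c : Cont M.κ F} (ht : c.t ≤ 2 ^ M.k) (b : Bool)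
    (u : Ct M.κ F) : preOp M.k (hb M (ofC c) b) u = pre (M.ht c b) u := by
  have hκ : 0 < M.κ := by have := hM.hκ; omega
  refine preOp_eq R hκ ?_ (fun j hj => hb_ofC hκ R c b hj) u
  unfold MP.ht
  split_ifs
  · exact le_rfl
  · exact ht

theorem bool_of_sq {a : F} (h : a * a = a) : ∃ b : Bool, a = bF F b := by
  have h1 : a * (a - 1) = 0 := by rw [mul_sub, h, mul_one, sub_self]
  rcases mul_eq_zero.1 h1 with h2 | h2
  · exact ⟨false, h2⟩
  · exact ⟨true, sub_eq_zero.1 h2⟩

/-- A number with given bits. -/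
theorem exists_bits {k : ℕ} (τ : ℕ → Bool) (h : ∀ j < k, (τ k && τ j) = false) :
    ∃ t ≤ 2 ^ k, ∀ j ≤ k, t.testBit j = τ j := by
  cases hk : τ k
  · refine ⟨Nat.ofBits fun j : Fin k => τ j, (Nat.ofBits_lt_two_pow _).le, fun j hj => ?_⟩
    rcases Nat.lt_or_ge j k with h1 | h1
    · exact Nat.testBit_ofBits_lt _ j h1
    · have : j = k := by omega
      subst this
      rw [hk]
      exact Nat.testBit_lt_two_pow (Nat.ofBits_lt_two_pow _)
  · refine ⟨2 ^ k, le_rfl, fun j hj => ?_⟩
    rw [Nat.testBit_two_pow]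
    rcases Nat.lt_or_ge j k with h1 | h1
    · have := h j h1
      rw [hk, Bool.true_and] at this
      rw [this, decide_eq_false_iff_not]
      omega
    · have : j = k := by omega
      subst this
      rw [hk, decide_eq_true rfl]

section agr

variable {B' : BC M.κ F} (h : Agr M.k M.L B B')

include h

theorem Agr.zb (b : Bool) : zb M B b = zb M B' b := by
  unfold H743.zb
  rw [h.z]

theorem Agr.hb (b : Bool) {j : ℕ} (hj : j ≤ M.k) : hb M B b j = hb M B' b j := by
  unfold H743.hb
  rw [h.zb, h.zb, h.t j hj]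

theorem Agr.inpB (b : Bool) : inpB M B b = inpB M B' b := by
  funext x
  unfold H743.inpB
  rw [h.zb, h.zb, h.w, h.w]

theorem Agr.fw (b : Bool) {s : ℕ} (hs : s ≤ M.L) : M.fw (B.w b) (B.P b) s = M.fw (B'.w b) (B'.P b) s :=
  fw_congr (h.w b) fun s' hs' => h.P b s' (by omega)

theorem Agr.VB (b : Bool) : VB M B b = VB M B' b := by
  funext x
  unfold H743.VB
  rw [h.inpB, h.fw b le_rfl, h.Q]

theorem Agr.preOp (b : Bool) (u : Ct M.κ F) :
    preOp M.k (H743.hb M B b) u = preOp M.k (H743.hb M B' b) u :=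
  preOp_congr (fun j hj => h.hb b (by omega)) u

theorem Agr.prodP (b : Bool) {s : ℕ} (hs : s < M.L) :
    M.prodP R (B.w b) (B.P b) s = M.prodP R (B'.w b) (B'.P b) s := by
  funext x
  unfold MP.prodP
  rw [h.fw b hs.le]

theorem Agr.ok (hB : Ok M R B') : Ok M R B where
  zc := by rw [h.z]; exact hB.zc
  zz := by rw [h.z]; exact hB.zz
  tc j hj := by rw [h.t j hj]; exact hB.tc j hj
  tt j hj := by rw [h.t j hj]; exact hB.tt j hj
  tk j hj := by rw [h.t j hj.le, h.t _ le_rfl]; exact hB.tk j hj
  nP b s hs j h1 h2 x := by rw [h.P b s hs]; exact hB.nP b s hs j h1 h2 x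
  nQ b j h1 h2 x := by rw [h.Q b]; exact hB.nQ b j h1 h2 x
  hw b := by rw [h.w b]; exact hB.hw b
  rule b := by rw [h.w b, h.preOp, h.VB]; exact hB.rule b
  bool b x := by rw [h.w b, h.zb]; exact hB.bool b x

theorem Agr.okN (hB : OkN M R B') : OkN M R B where
  P b s hs := by rw [h.P b s hs, h.prodP b hs]; exact hB.P b s hs
  Q b := by rw [h.Q b, h.w b]; exact hB.Q b

theorem Agr.okE (hB : OkE M R B') : OkE M R B where
  P b s hs := by rw [h.P b s hs, h.prodP b hs]; exact hB.P b s hs
  Q b := by rw [h.Q b, h.w b]; exact hB.Q b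

end agr

omit [Field F] in
theorem Agr.symm {k L : ℕ} {B B' : BC κ F} (h : Agr k L B B') : Agr k L B' B :=
  ⟨h.z.symm, fun j hj => (h.t j hj).symm, fun b => (h.w b).symm, fun b s hs => (h.P b s hs).symm,
    fun b => (h.Q b).symm⟩

omit [Field F] in
theorem tr_e_one (w : Ct κ F) : tr (e κ 1) w = tr (pt κ 2) w := by
  rw [e_eq, pow_one]

theorem bool_iff (hM : M.Good) (R : RSys M.κ F) (c : Cont M.κ F) :
    (∀ b x, zb M (ofC c) b * pre (4 * M.n) (msk isNand fun y => 1 + (ofC c).w b y +
      tr (e M.κ 1) ((ofC c).w b) y) x = 0) ↔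
    msk (fun x => isNand x && decide (x < 4 * M.n))
      (fun x => 1 + c.w c.z x + tr (pt M.κ 2) (c.w c.z) x) = 0 := by
  have hκ : 0 < M.κ := by have := hM.hκ; omega
  rw [MP.msk_boolChk]
  constructor
  · intro h
    funext x
    have := h c.z x
    rw [zb_ofC hκ R, decide_eq_true rfl, show bF F true = 1 from rfl, one_mul, tr_e_one] at this
    exact this
  · intro h b x
    rw [zb_ofC hκ R]
    by_cases hb : b = c.z
    · rw [decide_eq_true hb, show bF F true = 1 from rfl, one_mul, tr_e_one, hb]
      exact congrFun h x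
    · rw [decide_eq_false hb, show bF F false = 0 from rfl, zero_mul]

/-- **Soundness of the checks of the program.** -/
theorem Ok.chk (hM : M.Good) (h : Ok M R B) (hN : OkN M R B) :
    ∃ c : Cont M.κ F, M.Chk R c ∧ Agr M.k M.L B (ofC c) := by
  have hκ : 0 < M.κ := by have := hM.hκ; omega
  have hk1 : M.k + 1 ≤ M.κ := by have := hM.hκ; omega
  obtain ⟨z, hz⟩ := bool_of_sq h.zz
  have hτ : ∀ j, ∃ τ : Bool, j ≤ M.k → B.t j 0 = bF F τ := by
    intro j
    by_cases hj : j ≤ M.k
    · obtain ⟨τ, hτ⟩ := bool_of_sq (h.tt j hj)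
      exact ⟨τ, fun _ => hτ⟩
    · exact ⟨false, fun h => absurd h hj⟩
  choose τ hτ using hτ
  obtain ⟨t, ht, htb⟩ := exists_bits (k := M.k) τ (by
    intro j hj
    have h1 := h.tk j hj
    rw [hτ _ le_rfl, hτ j hj.le] at h1
    revert h1
    cases τ M.k <;> cases τ j <;> simp [bF])
  let c : Cont M.κ F := ⟨z, t, B.w, fun b s => if s < M.L then B.P b s else 0, B.Q⟩
  have hA : Agr M.k M.L B (ofC c) := by
    refine ⟨?_, fun j hj => ?_, fun _ => rfl, fun b s hs => ?_, fun _ => rfl⟩
    · rw [h.zc, hz]; rfl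
    · rw [h.tc j hj, hτ j hj, ← htb j hj]; rfl
    · exact (if_pos hs).symm
  have hO := hA.symm.ok h
  have hON := hA.symm.okN hN
  refine ⟨c, ?_, hA⟩
  exact
    { t_le := ht
      supp := hO.hw
      P_RS := fun b s hs => (mem_RS_succ_invOp R hk1 _).2 fun i h1 h2 x => hO.nP b s hs i h1 h2 x
      P_eq := fun b s hs => hON.P b s hs
      P_zero := fun b s hs => if_neg (by omega)
      Q_RS := fun b => (mem_RS_succ_invOp R hk1 _).2 fun i h1 h2 x => hO.nQ b i h1 h2 x
      Q_eq := fun b => hON.Q b
      rule := fun b => by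
        have h1 := hO.rule b
        rw [preOp_ofC hM R (show c.t ≤ _ from ht), VB_ofC hκ R] at h1
        exact h1
      bool := (bool_iff hM R c).1 hO.bool }

/-- **Completeness of the checks of the program.** -/
theorem ok_of_chk (hM : M.Good) {c : Cont M.κ F} (h : M.Chk R c) : Ok M R (ofC c) := by
  have hκ : 0 < M.κ := by have := hM.hκ; omega
  have hk1 : M.k + 1 ≤ M.κ := by have := hM.hκ; omega
  have hsq : ∀ b : Bool, bF F b * bF F b = bF F b := by intro b; cases b <;> simp [bF]
  refine ⟨rfl, hsq _, fun _ _ => rfl, fun _ _ => hsq _, ?_, ?_, ?_, h.supp, ?_,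
    (bool_iff hM R c).2 h.bool⟩
  · intro j hj
    show bF F (c.t.testBit M.k) * bF F (c.t.testBit j) = 0
    rw [bF_eq_top h.t_le]
    by_cases ht : c.t = 2 ^ M.k
    · have : ¬ M.k = j := by omega
      rw [ht, Nat.testBit_two_pow]
      simp [bF, this]
    · rw [decide_eq_false ht]; simp [bF]
  · intro b s hs j h1 h2 x
    exact (mem_RS_succ_invOp R hk1 _).1 (h.P_RS b s hs) j h1 h2 x
  · intro b j h1 h2 x
    exact (mem_RS_succ_invOp R hk1 _).1 (h.Q_RS b) j h1 h2 x
  · intro b
    rw [preOp_ofC hM R h.t_le, VB_ofC hκ R]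
    exact h.rule b

theorem Nice.of_chk {c : Cont M.κ F} (h : M.Chk R c) : Nice M.k M.L c := ⟨h.t_le, h.P_zero⟩

end checks

end Vale.Agent.P330.H743
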