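import Vale.Agent.P330.H743.Upd
import Vale.Agent.P330.H241.Defs
import Vale.Agent.P330.Q.Path

/-!
# The dynamics of the contents for an instance of End-of-Line

`Computes M I`: the slot program of `M` computes the two circuits of the instance `I`.
`Computes.dyn`: the dynamics on `Cont`, with the valid contents `MP.ValidC`, the step `MP.stepC` and
the start `(true, 0ⁿ, 2 ^ k)`. `Computes.reveal_false`, `Computes.reveal_true`: a valid content
without valid successor, or different from the start and without valid predecessor, reveals a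
solution.
-/

namespace Vale.Agent.P330.H743

open Finset H16 Q

set_option linter.unusedSectionVars false

/-! ### Words -/

/-- The list of the first `n` values. -/
def word (n : ℕ) (x : ℕ → Bool) : List Bool := (List.range n).map x

theorem word_length (n : ℕ) (x : ℕ → Bool) : (word n x).length = n := by simp [word]

theorem word_eq_iff {n : ℕ} {x y : ℕ → Bool} : word n x = word n y ↔ ∀ i < n, x i = y i := by
  constructor
  · intro h i hi
    have h1 : (word n x)[i]? = (word n y)[i]? := by rw [h]
    unfold word at h1
    rw [List.getElem?_map, List.getElem?_map, List.getElem?_range hi] at h1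
    simpa using h1
  · intro h
    unfold word
    exact List.map_congr_left fun i hi => h i (List.mem_range.1 hi)

theorem word_zero (n : ℕ) : word n (fun _ => false) = List.replicate n false := by
  simp [word]

/-- The slot program computes the two circuits of the instance. -/
structure Computes (M : MP) (I : EndOfLine) : Prop where
  n_eq : M.n = I.n
  S_eq : ∀ x, word I.n (M.nx false x) = I.S.eval (word I.n x)
  P_eq : ∀ x, word I.n (M.nx true x) = I.P.eval (word I.n x)

namespace Computes

variable {M : MP} {I : EndOfLine} {F : Type} [Field F] (R : RSys M.κ F) [CharP F 2]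

/-- The circuit `z` of the instance (`false`: successor). -/
def circ (I : EndOfLine) (z : Bool) : BoolCircuit := if z then I.P else I.S

theorem eval (h : Computes M I) (z : Bool) (x : ℕ → Bool) :
    word I.n (M.nx z x) = (circ I z).eval (word I.n x) := by
  cases z
  · exact h.S_eq x
  · exact h.P_eq x

/-- The round trip. -/
theorem back_iff (h : Computes M I) (z : Bool) (x : ℕ → Bool) :
    (∀ i < M.n, M.nx (!z) (M.nx z x) i = x i) ↔
      (circ I (!z)).eval ((circ I z).eval (word I.n x)) = word I.n x := by
  rw [← h.eval, ← h.eval, word_eq_iff, h.n_eq]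

/-- The start. -/
def s0 (M : MP) : MP.State := ⟨true, fun _ => false, 2 ^ M.k⟩

theorem start (hM : M.Good) (h : Computes M I) :
    ¬ M.ValidC R (M.stepC R true (M.cont R (s0 M))) := by
  have e1 : M.stepC R true (M.cont R (s0 M)) = { M.cont R (s0 M) with z := !(s0 M).z } :=
    H743.flip R (s0 M) rfl
  rw [e1, flip_valid R hM (s0 M) rfl, h.back_iff]
  show ¬ I.S.eval (I.P.eval (word I.n fun _ => false)) = word I.n fun _ => false
  rw [word_zero, I.pred_zero]
  exact I.succ_zero

/-- The step of the contents of a state is the contents of the stepped state, except for the flip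
of two full banks. -/
theorem step_cases (hM : M.Good) (d : Bool) (s : MP.State) (hs : s.t ≤ 2 ^ M.k)
    (hx : ∀ i, M.n ≤ i → s.x i = false) :
    (∃ s' : MP.State, s'.t ≤ 2 ^ M.k ∧ (∀ i, M.n ≤ i → s'.x i = false) ∧
      M.stepC R d (M.cont R s) = M.cont R s' ∧ M.stepC R (!d) (M.cont R s') = M.cont R s) ∨
    (d = s.z ∧ s.t = 2 ^ M.k) := by
  by_cases hd : d = s.z
  · subst hd
    by_cases ht : s.t = 2 ^ M.k
    · exact Or.inr ⟨rfl, ht⟩
    · refine Or.inl ⟨⟨s.z, s.x, s.t + 1⟩, by simp only; omega, hx, fill R hM s (by omega), ?_⟩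
      have := erase R hM ⟨s.z, s.x, s.t + 1⟩ (by simp) (by simp only; omega)
      simpa using this
  · have hd' := eq_not hd
    subst hd'
    rw [Bool.not_not]
    by_cases ht : s.t = 0
    · refine Or.inl ⟨⟨!s.z, s.x, 0⟩, Nat.zero_le _, hx, swap R hM s ht, ?_⟩
      have := swap R hM ⟨!s.z, s.x, 0⟩ rfl
      simp only [Bool.not_not] at this
      rw [this]
      congr 1
      exact MP.State.ext rfl rfl ht.symm
    · refine Or.inl ⟨⟨s.z, s.x, s.t - 1⟩, by simp only; omega, hx, erase R hM s (by omega) hs, ?_⟩
      have := fill R hM ⟨s.z, s.x, s.t - 1⟩ (by simp only; omega)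
      simp only at this
      rw [this]
      congr 1
      exact MP.State.ext rfl rfl (by simp only; omega)

theorem inv (hM : M.Good) (d : Bool) (c : Cont M.κ F) (hc : M.ValidC R c) :
    M.stepC R (!d) (M.stepC R d c) = c := by
  obtain ⟨s, hs, hx, rfl⟩ := hc
  rcases step_cases R hM d s hs hx with ⟨s', -, -, h1, h2⟩ | ⟨rfl, ht⟩
  · rw [h1, h2]
  · rw [flip R s ht]
    unfold MP.stepC
    show (if (!s.z) = !s.z then (if s.t = 2 ^ M.k then _ else _) else _) = _
    rw [if_pos rfl, if_pos ht]
    show ({ M.cont R s with z := !!s.z } : Cont M.κ F) = _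
    rw [Bool.not_not]
    rfl

/-- **[EOLC]** The dynamics of the contents. -/
def dyn (hM : M.Good) (h : Computes M I) : Dyn (Cont M.κ F) where
  Valid := M.ValidC R
  step := M.stepC R
  w0 := M.cont R (s0 M)
  valid0 := ⟨s0 M, le_rfl, fun _ _ => rfl, rfl⟩
  inv d c hc _ := inv R hM d c hc
  start := start R hM h

/-- The word in the input slots of the free bank. -/
def readC (M : MP) [DecidableEq F] (c : Cont M.κ F) : List Bool :=
  word M.n fun i => decide (c.w c.z (pt M.κ (4 * i)) = 1)

theorem readC_cont [DecidableEq F] (hM : M.Good) (s : MP.State) :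
    readC M (M.cont R s) = word M.n s.x := by
  unfold readC
  rw [word_eq_iff]
  intro i hi
  have h4 : 4 * i < 2 ^ M.k := by have := hM.hnk; omega
  rw [show (M.cont R s).z = s.z from rfl, cont_w, cw_pt hM _ h4, bank_z, val_input hi]
  cases s.x i <;> simp [bF]

/-- A valid content without valid step reveals a solution, unless it is the start. -/
theorem reveal [DecidableEq F] (hM : M.Good) (h : Computes M I) {d : Bool} {c : Cont M.κ F}
    (hc : M.ValidC R c) (hd : d = true → c ≠ M.cont R (s0 M))
    (hc' : ¬ M.ValidC R (M.stepC R d c)) : I.IsSolution (readC M c) := by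
  obtain ⟨s, hs, hx, rfl⟩ := hc
  rw [readC_cont R hM, h.n_eq]
  rcases step_cases R hM d s hs hx with ⟨s', h1, h2, h3, -⟩ | ⟨rfl, ht⟩
  · exact absurd ⟨s', h1, h2, h3⟩ hc'
  · rw [flip R s ht, flip_valid R hM s ht, h.back_iff] at hc'
    refine ⟨word_length _ _, fun h0 => ?_, ?_⟩
    · cases hz : s.z
      · rw [hz] at hc'
        apply hc'
        show I.P.eval (I.S.eval _) = _
        rw [h0, I.pred_succ_zero]
      · apply hd hz
        have : s = s0 M := by
          refine MP.State.ext hz ?_ ht
          funext i
          by_cases hi : i < M.n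
          · rw [← word_zero, word_eq_iff] at h0
            exact h0 i (by rw [← h.n_eq]; exact hi)
          · exact hx i (by omega)
        rw [this]
    · cases hz : s.z
      · rw [hz] at hc'
        exact Or.inl hc'
      · rw [hz] at hc'
        exact Or.inr hc'

/-- A content without valid successor. -/
theorem reveal_false [DecidableEq F] (hM : M.Good) (h : Computes M I) {c : Cont M.κ F}
    (hc : (h.dyn R hM).Valid c) (hc' : ¬ (h.dyn R hM).Valid ((h.dyn R hM).step false c)) :
    I.IsSolution (readC M c) :=
  reveal R hM h hc (fun h => absurd h Bool.false_ne_true) hc'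

/-- A content different from the start without valid predecessor. -/
theorem reveal_true [DecidableEq F] (hM : M.Good) (h : Computes M I) {c : Cont M.κ F}
    (hc : (h.dyn R hM).Valid c) (hw : c ≠ (h.dyn R hM).w0)
    (hc' : ¬ (h.dyn R hM).Valid ((h.dyn R hM).step true c)) : I.IsSolution (readC M c) :=
  reveal R hM h hc (fun _ => hw) hc'

end Computes

/-! ### Transport of a dynamics along a code -/

/-- The dynamics on codes `enc c`, for a step map `stp` on codes which agrees with the step of the
dynamics on valid configurations. -/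
def mapDyn {C Y : Type*} (D : Dyn C) (enc : C → Y) (stp : Bool → Y → Y)
    (hstp : ∀ z c, D.Valid c → stp z (enc c) = enc (D.step z c))
    (hinj : ∀ z c c', D.Valid c → D.Valid c' → enc (D.step z c) = enc c' → D.step z c = c') :
    Dyn Y where
  Valid y := ∃ c, D.Valid c ∧ y = enc c
  step := stp
  w0 := enc D.w0
  valid0 := ⟨D.w0, D.valid0, rfl⟩
  inv z y h h' := by
    obtain ⟨c, hc, rfl⟩ := h
    obtain ⟨c', hc', h'⟩ := h'
    rw [hstp z c hc] at h' ⊢
    have e := hinj z c c' hc hc' h'
    rw [hstp (!z) _ (e ▸ hc'), D.inv z c hc (e ▸ hc')]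
  start := by
    rintro ⟨c', hc', h'⟩
    rw [hstp true _ D.valid0] at h'
    exact D.start (hinj true _ _ D.valid0 hc' h' ▸ hc')

theorem mapDyn_valid_iff {C Y : Type*} {D : Dyn C} {enc : C → Y} {stp : Bool → Y → Y}
    {hstp : ∀ z c, D.Valid c → stp z (enc c) = enc (D.step z c)}
    {hinj : ∀ z c c', D.Valid c → D.Valid c' → enc (D.step z c) = enc c' → D.step z c = c'}
    {y : Y} : (mapDyn D enc stp hstp hinj).Valid y ↔ ∃ c, D.Valid c ∧ y = enc c := Iff.rfl

/-- A valid code without valid step comes from a configuration without valid step. -/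
theorem mapDyn_reveal {C Y : Type*} {D : Dyn C} {enc : C → Y} {stp : Bool → Y → Y}
    {hstp : ∀ z c, D.Valid c → stp z (enc c) = enc (D.step z c)}
    {hinj : ∀ z c c', D.Valid c → D.Valid c' → enc (D.step z c) = enc c' → D.step z c = c'}
    {z : Bool} {y : Y} (h : (mapDyn D enc stp hstp hinj).Valid y)
    (h' : ¬ (mapDyn D enc stp hstp hinj).Valid (stp z y)) :
    ∃ c, D.Valid c ∧ y = enc c ∧ ¬ D.Valid (D.step z c) := by
  obtain ⟨c, hc, rfl⟩ := h
  refine ⟨c, hc, rfl, fun h2 => h' ⟨_, h2, hstp z c hc⟩⟩

end Vale.Agent.P330.H743
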