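import Vale.Agent.P330.H743.TopPJ
import Vale.Agent.P330.H247.Num

/-!
# The number of instructions of the content programs

The compiled content program has at most polynomially many instructions in `k`, `κ` and `L`; hence
polylogarithmically many in the size of the instance.
-/

set_option autoImplicit false
set_option linter.unusedSectionVars false

namespace Vale.Agent.P330.H743

open H16 H118

/-! ### Lengths of macros -/

/-- The code of the macro `m` has at most `n` instructions. -/
def LB {F : Type} (m : Mac F) (n : ℕ) : Prop := ∀ r u, (m r u).1.length ≤ n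

section LB

variable {F : Type} {a b c : Mac F} {m n p : ℕ}

theorem LB.mono (h : LB a m) (hn : m ≤ n) : LB a n := fun r u => (h r u).trans hn

variable [Field F]

theorem LB.idM : LB (H16.idM : Mac F) 0 := fun _ _ => le_rfl

theorem LB.trM (j : ℕ) : LB (H16.trM j : Mac F) 1 := fun _ _ => le_rfl

theorem LB.mxM (j : ℕ) : LB (H16.mxM j : Mac F) 1 := fun _ _ => le_rfl

theorem LB.sumM : LB (H16.sumM : Mac F) 1 := fun _ _ => le_rfl

theorem LB.smM (j : ℕ) : LB (H16.smM j : Mac F) 1 := fun _ _ => le_rfl

theorem LB.comp (ha : LB a m) (hb : LB b n) : LB (H16.comp a b) (m + n) := fun r u => by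
  simp only [H16.comp, List.length_append]
  exact Nat.add_le_add (ha _ _) (hb _ _)

theorem LB.iterM {A : ℕ → Mac F} (l : List ℕ) (h : ∀ j ∈ l, LB (A j) n) :
    LB (H16.iterM A l) (l.length * n) := by
  induction l with
  | nil => exact LB.idM.mono (Nat.zero_le _)
  | cons j l ih =>
    refine ((h j (List.mem_cons_self ..)).comp (ih fun i hi =>
      h i (List.mem_cons_of_mem _ hi))).mono ?_
    rw [List.length_cons, Nat.succ_mul]
    omega

theorem LB.lcAux {l : List (F × Mac F)} (h : ∀ q ∈ l, LB q.2 n) (r u : ℕ) :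
    (H16.lcAux l r u).1.length ≤ l.length * n := by
  induction l generalizing r with
  | nil => exact Nat.zero_le _
  | cons q l ih =>
    have h1 := h q (List.mem_cons_self ..) r u
    have h2 := ih (fun i hi => h i (List.mem_cons_of_mem _ hi)) (r + (q.2 r u).1.length)
    simp only [H16.lcAux, List.length_append, List.length_cons, Nat.succ_mul]
    omega

theorem LB.lc {l : List (F × Mac F)} (h : ∀ q ∈ l, LB q.2 n) :
    LB (H16.lc l) (l.length * n + 1) := fun r u => by
  have h1 := LB.lcAux h r u
  simp only [H16.lc, List.length_append, List.length_cons, List.length_nil]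
  omega

theorem LB.add2 (ha : LB a m) (hb : LB b n) : LB (H118.add2 a b) (m + n + 1) := fun r u => by
  have h1 := ha r u
  have h2 := hb (r + (a r u).1.length) u
  simp only [H118.add2, H16.lc, H16.lcAux, List.length_append, List.length_cons, List.length_nil]
  omega

theorem LB.add3 (ha : LB a m) (hb : LB b n) (hc : LB c p) :
    LB (H118.add3 a b c) (m + n + p + 1) := fun r u => by
  have h1 := ha r u
  have h2 := hb (r + (a r u).1.length) u
  have h3 := hc (r + (a r u).1.length + (b (r + (a r u).1.length) u).1.length) u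
  simp only [H118.add3, H16.lc, H16.lcAux, List.length_append, List.length_cons, List.length_nil]
  omega

theorem LB.zeroM : LB (H118.zeroM : Mac F) 1 := fun _ _ => le_rfl

theorem LB.smG (cs : List ℕ) (j : ℕ) : LB (H118.smG cs j : Mac F) 1 := by
  unfold H118.smG
  split_ifs
  · exact LB.smM _
  · exact LB.zeroM

theorem LB.nxM (j : ℕ) : LB (H118.nxM j : Mac F) 2 := LB.idM.add2 (LB.mxM j)

theorem LB.affM (cs : List ℕ) (j : ℕ) : LB (H118.affM cs j : Mac F) 3 :=
  LB.idM.add3 (LB.mxM j) (LB.smG cs j)

theorem LB.bcM (j : ℕ) : LB (H118.bcM j : Mac F) 2 := LB.idM.add2 (LB.trM j)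

variable (cf : ℕ → ℕ → F) (κ : ℕ)

theorem LB.sM (j : ℕ) : LB (H118.sM cf κ j) (κ + 1) := by
  refine (LB.lc (n := 1) fun q hq => ?_).mono ?_
  · obtain ⟨i, _, rfl⟩ := List.mem_map.1 hq
    exact LB.mxM i
  · rw [List.length_map, List.length_range, mul_one]

theorem LB.s1M (cs : List ℕ) (j : ℕ) : LB (H118.s1M cf κ cs j) (κ + 3) :=
  (LB.idM.add3 (LB.sM cf κ j) (LB.smG cs j)).mono (by omega)

theorem LB.ifaM (j : ℕ) : LB (H118.ifaM cf κ j) (κ + 4) :=
  (LB.idM.add2 ((LB.bcM j).comp (LB.sM cf κ j))).mono (by omega)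

theorem LB.iffM (j : ℕ) : LB (H118.iffM cf κ j) (2 * κ + 13) :=
  ((LB.ifaM cf κ j).add2 (((LB.ifaM cf κ j).add2 (LB.bcM j)).comp (LB.mxM j))).mono (by omega)

theorem LB.at0M (j : ℕ) : LB (H118.at0M j : Mac F) 5 :=
  (LB.nxM j).add2 ((LB.trM j).comp (LB.mxM j))

theorem LB.at1M (j : ℕ) : LB (H118.at1M j : Mac F) 5 :=
  ((LB.mxM j).add2 ((LB.trM j).comp (LB.nxM j)))

theorem LB.ffM (j : ℕ) : LB (H118.ffM cf κ j) (κ + 12) :=
  ((LB.at0M j).add2 ((LB.at1M j).comp (LB.sM cf κ j))).mono (by omega)

theorem LB.hM (k : ℕ) : LB (H118.hM κ k : Mac F) (κ * 2) :=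
  (LB.iterM (n := 2) _ fun j _ => LB.nxM j).mono
    (Nat.mul_le_mul_right _ (by rw [List.length_range']; omega))

theorem LB.invM : LB (H118.invM cf κ) (κ * (2 * κ + 13)) :=
  (LB.iterM _ fun j _ => LB.iffM cf κ j).mono (by rw [List.length_range])

theorem LB.ldeM (k : ℕ) :
    LB (H118.ldeM cf κ k) (κ * 2 + (k * (2 * κ + 13) + κ * (κ + 12))) := by
  refine (LB.hM κ k).comp (LB.comp ?_ ?_)
  · exact (LB.iterM _ fun j _ => LB.iffM cf κ j).mono (by rw [List.length_range])
  · exact (LB.iterM _ fun j _ => LB.ffM cf κ j).mono (by rw [List.length_reverse,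
      List.length_range])

theorem LB.preAux (cs : List ℕ) (m : ℕ) : LB (H118.preAux cs m : Mac F) (7 * m + 1) := by
  induction m with
  | zero => exact LB.zeroM
  | succ m ih =>
    exact (((LB.nxM m).comp (LB.smG cs m)).add2 (ih.comp (LB.affM cs m))).mono (by omega)

theorem LB.preM (k : ℕ) (cs : List ℕ) : LB (H118.preM κ k cs : Mac F) (κ * 2 + (7 * k + 3)) :=
  ((LB.hM κ k).comp ((LB.preAux cs k).add2 (LB.smG cs k))).mono (by omega)

theorem LB.LM (k : ℕ) (cs : List ℕ) : LB (H118.LM cf κ k cs) (k * (κ + 3)) :=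
  (LB.iterM _ fun j _ => LB.s1M cf κ cs j).mono (by rw [List.length_range])

theorem LB.chM (k : ℕ) (cs : List ℕ) : LB (H118.chM κ k cs : Mac F) (κ * 3) := by
  refine (LB.iterM (n := 3) _ fun j _ => ?_).mono (by rw [List.length_range])
  split_ifs
  · exact LB.affM cs j
  · exact (LB.nxM j).mono (by omega)

theorem LB.trPM (p : ℕ) : LB (H118.trPM κ p : Mac F) κ :=
  (LB.iterM (n := 1) _ fun j _ => LB.trM j).mono (by
    rw [mul_one]
    exact (List.length_filter_le _ _).trans (by rw [List.length_range]))

/-- **Every macro has few instructions.** -/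
theorem LB.mac (k : ℕ) (off : Bool → ℕ) (u : UM) (cs : List ℕ) :
    LB (H118.mac cf κ k off u cs) (50 * (κ + k + 1) ^ 2) := by
  have hs : κ + k + 1 ≤ (κ + k + 1) ^ 2 := by nlinarith
  cases u with
  | tr j => exact (LB.trM j).mono (by omega)
  | mx j => exact (LB.mxM j).mono (by omega)
  | sum => exact LB.sumM.mono (by omega)
  | hh => exact (LB.hM κ k).mono (by omega)
  | lde => exact (LB.ldeM cf κ k).mono (by nlinarith)
  | inv => exact (LB.invM cf κ).mono (by nlinarith)
  | nand => exact ((LB.mxM 1).comp (LB.nxM 0)).mono (by omega)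
  | k0 => exact ((LB.nxM 1).comp (LB.nxM 0)).mono (by omega)
  | k1 => exact ((LB.nxM 1).comp (LB.mxM 0)).mono (by omega)
  | rd0 =>
    exact (LB.iterM (n := 2) _ fun j _ => LB.nxM j).mono (by rw [List.length_range]; omega)
  | pre => exact (LB.preM κ k cs).mono (by omega)
  | LL => exact (LB.LM cf κ k cs).mono (by nlinarith)
  | ch => exact (LB.chM κ k cs).mono (by omega)
  | off z => exact (LB.trPM κ (off z)).mono (by omega)

theorem genK_length (k : ℕ) (off : Bool → ℕ) (kd : Kd F) (n : ℕ) (as : List ℕ) :
    (genK (H118.mac cf κ k off) kd n as).1.length ≤ 50 * (κ + k + 1) ^ 2 := by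
  have hs : κ + k + 1 ≤ (κ + k + 1) ^ 2 := by nlinarith
  cases kd with
  | lin l => exact le_trans (b := 1) le_rfl (by omega)
  | pub p => exact le_trans (b := 1) le_rfl (by omega)
  | smul => exact le_trans (b := 1) le_rfl (by omega)
  | un m => exact LB.mac cf κ k off m as.tail n (as.headD 0)

end LB

theorem compile_length {N K F : Type} [DecidableEq N] {gen : Gen K F} {B : ℕ}
    (h : ∀ kd n as, (gen kd n as).1.length ≤ B) (l : List (Cmd N K)) (env : N → ℕ) (n : ℕ) :
    (compile gen l env n).2.length ≤ l.length * B := by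
  induction l generalizing env n with
  | nil => exact Nat.zero_le _
  | cons c l ih =>
    have h1 := h c.kd n (c.args.map env)
    have h2 := ih (Function.update env c.out (gen c.kd n (c.args.map env)).2)
      (n + (gen c.kd n (c.args.map env)).1.length)
    simp only [compile, List.length_append, List.length_cons, Nat.succ_mul]
    omega

/-! ### The number of commands -/

section

variable {F : Type} [Field F] (p : PP F)

theorem len_fm {ι : Type} {n m : ℕ} {f : ℕ → List ι} (h : ∀ i, (f i).length = m) :
    ((List.range n).flatMap f).length = n * m := by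
  rw [List.length_flatMap, funext h, List.map_const', List.sum_replicate, List.length_range,
    smul_eq_mul]

theorem prR_length (b : Bool) : (p.prR b).length = p.L * (6 + p.κ) + 1 := by
  unfold PP.prR
  rw [List.length_cons, len_fm (m := 6 + p.κ)]
  intro s
  rw [List.length_append, PP.prR2, len_fm (m := 1) fun _ => rfl, mul_one]
  rfl

theorem prU_length (m : Bool) :
    (p.prU m).length = 1 + (p.L * (p.k * 2 + (p.k * 2 + 5)) + (p.k * 2 + 4)) := by
  unfold PP.prU
  rw [List.length_append, List.length_append, List.length_append,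
    len_fm (m := p.k * 2 + (p.k * 2 + 5)), PP.prA, len_fm (m := 2) fun _ => rfl]
  · rfl
  · intro s
    rw [PP.prUs, List.length_append, List.length_append, PP.prU1, PP.prU2,
      len_fm (m := 2) fun _ => rfl, len_fm (m := 2) fun _ => rfl]
    rfl

theorem prN_length (m b : Bool) : (p.prN m b).length = 4 + (p.L * 2 + 7) := by
  unfold PP.prN
  rw [List.length_append, List.length_append, PP.prN2, len_fm (m := 2) fun _ => rfl]
  rfl

theorem seg_length (i : ℕ) : (p.seg i).length ≤ 50 * (p.k + p.κ + p.L + 1) ^ 2 := by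
  have hs : p.k + p.κ + p.L + 1 ≤ (p.k + p.κ + p.L + 1) ^ 2 := by nlinarith
  have h2 : p.prS2.length = (p.k + 1) * 3 := len_fm fun _ => rfl
  have h3 : p.prS3.length = (p.k + 1) * 11 := len_fm fun _ => rfl
  have h4 : p.prS4.length = p.L * 1 + 1 := congrArg (· + 1) (len_fm fun _ => rfl)
  have hG : ∀ b, (p.prG2 b).length = p.κ * 1 := fun b => len_fm fun _ => rfl
  have hT : ∀ b, (p.prT b).length = (p.k + 1) * 4 := fun b => len_fm fun _ => rfl
  have hB : ∀ d b, (p.prB2 d b).length = p.L * 4 := fun d b => len_fm fun _ => rfl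
  have hR : ∀ b, (p.prR b).length ≤ 50 * (p.k + p.κ + p.L + 1) ^ 2 := fun b => by
    rw [prR_length]
    nlinarith
  have hU : ∀ b, (p.prU b).length ≤ 50 * (p.k + p.κ + p.L + 1) ^ 2 := fun b => by
    rw [prU_length]
    nlinarith
  match i with
  | 0 => exact le_trans (b := 9) le_rfl (by omega)
  | 1 => exact h2.le.trans (by omega)
  | 2 => exact h3.le.trans (by omega)
  | 3 => exact h4.le.trans (by omega)
  | 4 => exact hR _
  | 5 => exact hR _
  | 6 => exact le_trans (b := 8) le_rfl (by omega)
  | 7 => exact le_trans (b := 8) le_rfl (by omega)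
  | 8 => exact (hG _).le.trans (by omega)
  | 9 => exact (hG _).le.trans (by omega)
  | 10 => exact le_trans (b := 17) le_rfl (by omega)
  | 11 => exact le_trans (b := 17) le_rfl (by omega)
  | 12 => exact hU _
  | 13 => exact hU _
  | 14 => exact (prN_length p _ _).le.trans (by omega)
  | 15 => exact (prN_length p _ _).le.trans (by omega)
  | 16 => exact (prN_length p _ _).le.trans (by omega)
  | 17 => exact (prN_length p _ _).le.trans (by omega)
  | 18 => exact le_trans (b := 10) le_rfl (by omega)
  | 19 => exact le_trans (b := 10) le_rfl (by omega)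
  | 20 => exact (hT _).le.trans (by omega)
  | 21 => exact (hT _).le.trans (by omega)
  | 22 => exact le_trans (b := 8) le_rfl (by omega)
  | 23 => exact le_trans (b := 8) le_rfl (by omega)
  | 24 => exact le_trans (b := 8) le_rfl (by omega)
  | 25 => exact le_trans (b := 8) le_rfl (by omega)
  | 26 => exact (hB _ _).le.trans (by omega)
  | 27 => exact (hB _ _).le.trans (by omega)
  | 28 => exact (hB _ _).le.trans (by omega)
  | 29 => exact (hB _ _).le.trans (by omega)
  | _ + 30 => exact Nat.zero_le _

theorem prog_length : p.prog.length ≤ 1500 * (p.k + p.κ + p.L + 1) ^ 2 := by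
  rw [PP.prog, List.length_flatMap]
  have h := List.sum_le_card_nsmul ((List.range 30).map fun i => (p.seg i).length)
    (50 * (p.k + p.κ + p.L + 1) ^ 2) fun x hx => by
      obtain ⟨i, _, rfl⟩ := List.mem_map.1 hx
      exact seg_length p i
  rw [List.length_map, List.length_range, smul_eq_mul] at h
  exact h.trans (le_of_eq (by ring))

end

/-- **The number of instructions of the content program.** -/
theorem topP_HL {F : Type} [Field F] (M : MP) (R : RSys M.κ F) :
    (topP M R).HL ≤ 1500 * (M.k + M.κ + M.L + 1) ^ 2 * (50 * (M.κ + M.k + 1) ^ 2) :=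
  (compile_length (genK_length (M.pp R).sc M.κ M.k M.off) (M.pp R).prog _ _).trans
    (Nat.mul_le_mul_right _ (prog_length (M.pp R)))

open Vale.Agent.P330.H838 (QLog) in
/-- **The number of instructions is polylogarithmic.** -/
theorem qlog_HLJ : QLog fun I => (topJ.Pg I).HL := by
  have hk : QLog fun I => (H840.mpJ I).k := H247.qlog_kJ
  have hκ : QLog fun I => (H840.mpJ I).κ := H247.qlog_kapJ
  have hL : QLog fun I => (H840.mpJ I).L := H247.qlog_LJ
  have c1 : QLog (fun _ => 1) := QLog.const 1
  exact (((QLog.const 1500).mul ((((hk.add hκ).add hL).add c1).pow 2)).mul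
    ((QLog.const 50).mul (((hκ.add hk).add c1).pow 2))).mono fun I => topP_HL _ _

end Vale.Agent.P330.H743
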