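import Vale.Agent.P330.H743.Enc
import Vale.Agent.P330.H16.TopDom
import Vale.Agent.P330.H780.TopA
import Vale.Agent.P330.W.H118.TopUpd
import Vale.Agent.P330.W.H118.Macros
import Vale.Agent.P330.H155.TopMach
import Vale.Agent.P330.H780.TopIdx
import Vale.Agent.P330.H244.TopChk

/-!
# The compiled content program satisfies the conditions `TopOK`

`topP M R`: the content program of the machine `M`, as an `HProg`.  `topOK`: it satisfies
`H155.TopOK`.
-/

set_option autoImplicit false
set_option linter.unusedSectionVars false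

namespace Vale.Agent.P330.H743

open Finset H16 H155

/-! ### The program -/

section

variable {F : Type} [Field F]

/-- The registers of the base names. -/
def env0 (p : PP F) (x : Nm) : ℕ := p.base.idxOf x

/-- The registers of the names and the instructions. -/
def cpl (M : MP) (R : RSys M.κ F) : (Nm → ℕ) × List (Ins F) :=
  compile (genK (H118.mac (M.pp R).sc M.κ M.k M.off)) (M.pp R).prog (env0 (M.pp R)) (nB M.k M.L)

/-- The register of a name. -/
def rg (M : MP) (R : RSys M.κ F) (x : Nm) : ℕ := (cpl M R).1 x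

/-- The content program. -/
def topP (M : MP) (R : RSys M.κ F) : HProg F where
  prog := (cpl M R).2
  eqs := (M.pp R).eqs.map fun q => (rg M R q.1, rg M R q.2)
  prods := (M.pp R).prods.map fun q => (rg M R q.1, rg M R q.2.1, rg M R q.2.2)
  out z i := rg M R (((M.pp R).outN z).getD i .z)

/-- The facts about the names of the program. -/
structure NmOK (p : PP F) : Prop where
  wf : WF (fun x => x ∈ p.base) p.prog
  nodup : (outs p.prog).Nodup
  base : ∀ x ∈ outs p.prog, x ∉ p.base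

/-- The base contents of the names. -/
def bcOf {κ : ℕ} (σ : Nm → Ct κ F) : BC κ F :=
  ⟨σ .z, fun j => σ (.t j), fun b => σ (.w b), fun b s => σ (.P b s), fun b => σ (.Q b)⟩

/-- The facts about the checks, on names (`chkNm`: they hold). -/
structure ChkNm (M : MP) (R : RSys M.κ F) (pub : ℕ → Ct M.κ F) : Prop where
  eqs : ∀ σ : Nm → Ct M.κ F, (M.pp R).Eqs M.off R pub σ →
    ((∀ q ∈ (M.pp R).eqs, σ q.1 = σ q.2) ↔ Ok M R (bcOf σ))
  prods : ∀ σ : Nm → Ct M.κ F, (M.pp R).Eqs M.off R pub σ →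
    ((∀ q ∈ (M.pp R).prods, MP.Near (σ q.1) fun x => σ q.2.1 x * σ q.2.2 x) ↔ OkN M R (bcOf σ))
  prodsE : ∀ σ : Nm → Ct M.κ F, (M.pp R).Eqs M.off R pub σ →
    ((∀ q ∈ (M.pp R).prods, σ q.1 = fun x => σ q.2.1 x * σ q.2.2 x) ↔ OkE M R (bcOf σ))

/-! ### Names -/

/-- The names which are defined. -/
def Cv (p : PP F) (x : Nm) : Prop := x ∈ p.base ∨ x ∈ outs p.prog

theorem cv_of_bd {p : PP F} {x : Nm} (h : p.bd x) : Cv p x := by
  rcases PP.cov (p := p) x h with h1 | h1
  · exact Or.inl h1.2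
  · right
    have h2 := h1.2
    rw [PP.prog, PP.mem_outs_range]
    by_cases h3 : lvl x - 1 < 30
    · exact ⟨_, h3, h2⟩
    · exfalso
      obtain ⟨m, hm⟩ : ∃ m, lvl x - 1 = m + 30 := ⟨lvl x - 1 - 30, by omega⟩
      rw [hm] at h2
      have h4 : p.seg (m + 30) = [] := rfl
      rw [h4] at h2
      simp [outs] at h2

theorem cv_eqs {p : PP F} {q : Nm × Nm} (h : q ∈ p.eqs) : Cv p q.1 ∧ Cv p q.2 := by
  have key : p.bd q.1 ∧ p.bd q.2 := by
    simp only [PP.eqs, PP.eqs1, PP.eqs2, PP.eqs3, List.mem_append, List.mem_cons, List.mem_flatMap,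
      List.mem_map, List.mem_range, List.not_mem_nil, or_false] at h
    rcases h with ((rfl | rfl) | ⟨j, hj, rfl | rfl⟩ | ⟨j, hj, rfl⟩) |
      (⟨s, hs, j, hj, rfl⟩ | ⟨j, hj, rfl⟩) | (⟨s, hs, j, hj, rfl⟩ | ⟨j, hj, rfl⟩) |
      (rfl | rfl | rfl) | rfl | rfl | rfl
    all_goals try split_ifs
    all_goals simp only [PP.bd, and_true]
    all_goals first | trivial | omega
  exact ⟨cv_of_bd key.1, cv_of_bd key.2⟩

theorem cv_prods {p : PP F} {q : Nm × Nm × Nm} (h : q ∈ p.prods) :
    Cv p q.1 ∧ Cv p q.2.1 ∧ Cv p q.2.2 := by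
  have key : p.bd q.1 ∧ p.bd q.2.1 ∧ p.bd q.2.2 := by
    simp only [PP.prods, List.mem_append, List.mem_cons,
      List.mem_map, List.mem_range, List.not_mem_nil, or_false] at h
    rcases h with ⟨s, hs, rfl⟩ | ⟨s, hs, rfl⟩ | rfl | rfl
    · exact ⟨hs, hs, hs⟩
    · exact ⟨hs, hs, hs⟩
    · exact ⟨trivial, trivial, trivial⟩
    · exact ⟨trivial, trivial, trivial⟩
  exact ⟨cv_of_bd key.1, cv_of_bd key.2.1, cv_of_bd key.2.2⟩

theorem cv_outN {p : PP F} {d : Bool} {x : Nm} (h : x ∈ p.outN d) : Cv p x := by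
  refine cv_of_bd ?_
  simp only [PP.outN, PP.tup, List.mem_cons, List.mem_append, List.mem_map, List.mem_range,
    List.not_mem_nil, or_false] at h
  rcases h with rfl | ⟨j, hj, rfl⟩ | rfl | rfl | ⟨s, hs, rfl⟩ | ⟨s, hs, rfl⟩ | rfl | rfl
  all_goals simp only [PP.bd]
  all_goals omega

end

theorem nmOK {F : Type} [Field F] {p : PP F} (hk : 1 ≤ p.k) : NmOK p :=
  ⟨PP.wf_prog hk, PP.nodup_prog, fun _ hx => PP.base_not_out hx⟩

/-! ### Lists of base contents -/

section

variable {κ : ℕ} {F : Type}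

theorem agr_of_lst [Zero F] {k L : ℕ} {B B' : BC κ F} (h : lst k L B = lst k L B') :
    Agr k L B B' := by
  have h2 := agr_ofL_lst (k := k) (L := L) B
  have h3 := agr_ofL_lst (k := k) (L := L) B'
  rw [h] at h2
  exact ⟨h2.z.symm.trans h3.z, fun j hj => (h2.t j hj).symm.trans (h3.t j hj),
    fun b => (h2.w b).symm.trans (h3.w b), fun b s hs => (h2.P b s hs).symm.trans (h3.P b s hs),
    fun b => (h2.Q b).symm.trans (h3.Q b)⟩

end

/-! ### The contents of the names -/

section

variable {F : Type} [Field F] {M : MP} {R : RSys M.κ F} {pub : ℕ → Ct M.κ F}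

theorem base_map (σ : Nm → Ct M.κ F) : (M.pp R).base.map σ = lst M.k M.L (bcOf σ) :=
  tup_map (M.pp R) σ _ _ _ _ _

theorem base_length : (M.pp R).base.length = nB M.k M.L := by
  have := congrArg List.length (base_map (M := M) (R := R) fun _ => 0)
  rwa [List.length_map, lst_length] at this

theorem has_base {l : List (Ct M.κ F)} {σ : Nm → Ct M.κ F} (h : (M.pp R).base.map σ = l) {y : Nm}
    (hy : y ∈ (M.pp R).base) : Has l (env0 (M.pp R) y) (σ y) := by
  unfold Has env0
  rw [← h, List.getElem?_map, List.getElem?_idxOf hy]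
  rfl

/-- Contents of the names for arbitrary base contents. -/
theorem exists_names (hM : M.Good) (hN : NmOK (M.pp R)) (h0 : pub 0 = fun _ => 1)
    (x : Fin (nB M.k M.L) → Ct M.κ F) :
    ∃ σ : Nm → Ct M.κ F, (M.pp R).Eqs M.off R pub σ ∧ lst M.k M.L (bcOf σ) = List.ofFn x ∧
      runOK pub (topP M R).prog (List.ofFn x) ∧
      ∀ y, Cv (M.pp R) y → Has (run pub (topP M R).prog (List.ofFn x)) (rg M R y) (σ y) := by
  have hκ : 0 < M.κ := by have := hM.hκ; omega
  have hk1 : 1 ≤ M.k := by have := hM.hk; omega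
  have hk : M.k ≤ M.κ := by have := hM.hκ; omega
  have hlen : (List.ofFn x).length = nB M.k M.L := List.length_ofFn
  let B := ofL M.k M.L (List.ofFn x)
  let X : Nm → Ct M.κ F := fun y => match y with
    | .z => B.z
    | .t j => B.t j
    | .w b => B.w b
    | .P b s => B.P b s
    | .Q b => B.Q b
    | _ => 0
  obtain ⟨σ, h1, h2⟩ := exists_sol (k := M.k) (off := M.off) (R := R) (pub := pub) hN.wf hN.nodup
    hN.base X
  have hE : (M.pp R).Eqs M.off R pub σ := PP.Eqs.of h0 h2
  have hmap : (M.pp R).base.map σ = List.ofFn x := by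
    have h3 : (M.pp R).base.map σ = (M.pp R).base.map X := List.map_congr_left fun y hy => h1 y hy
    rw [h3, base_map]
    exact lst_ofL hlen
  have hmac : MacOK M.k M.off R pub (H118.mac (M.pp R).sc M.κ M.k M.off) :=
    H118.mac_ok R hκ hk M.off (fun _ _ _ _ => rfl) pub
  obtain ⟨ex, h4, h5, h6⟩ := compile_sol hmac h2 (hE.argOK hκ hk1) hN.wf
    (rs := List.ofFn x) (env := env0 (M.pp R)) (fun y hy => has_base hmap hy)
  rw [hlen] at h4 h5 h6
  refine ⟨σ, hE, by rw [← base_map (R := R), hmap], h5, fun y hy => ?_⟩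
  show Has (run pub (cpl M R).2 _) _ _
  unfold cpl
  rw [h4]
  exact h6 y hy

theorem hv_eq {x : Fin (nB M.k M.L) → Ct M.κ F} {i : ℕ} {u : Ct M.κ F}
    (h : Has (run pub (topP M R).prog (List.ofFn x)) i u) : hv pub (topP M R).prog x i = u :=
  h.getD

theorem has_lt {x : Fin (nB M.k M.L) → Ct M.κ F} {i : ℕ} {u : Ct M.κ F}
    (h : Has (run pub (topP M R).prog (List.ofFn x)) i u) : i < nB M.k M.L + (topP M R).HL := by
  have := h.lt
  rwa [run_length, List.length_ofFn] at this

theorem rg_lt (hM : M.Good) (hN : NmOK (M.pp R)) {y : Nm} (hy : Cv (M.pp R) y) :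
    rg M R y < nB M.k M.L + (topP M R).HL := by
  obtain ⟨σ, -, -, -, h⟩ := exists_names (pub := fun _ _ => 1) hM hN rfl
    (fun _ => 0 : Fin (nB M.k M.L) → Ct M.κ F)
  exact has_lt (h y hy)

/-- **The compiled program satisfies the conditions.** -/
theorem topOK_of [CharP F 2] (hM : M.Good) (hN : NmOK (M.pp R)) (h0 : pub 0 = fun _ => 1)
    (hpub : ∀ s < M.L, pub (s + 1) = M.swE R s) (hC : ChkNm M R pub)
    (hI : ∀ i ∈ (topP M R).prog, InsK M.κ i) :
    TopOK M R pub (topP M R) (enc M.k M.L) where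
  idx := hI
  ok x := by
    obtain ⟨σ, -, -, h, -⟩ := exists_names hM hN h0 x
    exact h
  eqs_lt := by
    intro q' hq'
    obtain ⟨q, hq, rfl⟩ := List.mem_map.1 hq'
    exact ⟨rg_lt hM hN (cv_eqs hq).1, rg_lt hM hN (cv_eqs hq).2⟩
  prods_lt := by
    intro q' hq'
    obtain ⟨q, hq, rfl⟩ := List.mem_map.1 hq'
    exact ⟨rg_lt hM hN (cv_prods hq).1, rg_lt hM hN (cv_prods hq).2.1,
      rg_lt hM hN (cv_prods hq).2.2⟩
  out_lt z i hi := by
    refine rg_lt hM hN (cv_outN (d := z) ?_)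
    have hl : i < ((M.pp R).outN z).length := by
      have := congrArg List.length (tup_map (M.pp R) (fun _ => (0 : Ct M.κ F)) (.oz z) (.ot z)
        (.ow z) (.oP z) (.oQ z))
      rw [List.length_map, lst_length] at this
      show i < ((M.pp R).tup _ _ _ _ _).length
      rw [this]
      exact hi
    rw [List.getD_eq_getElem _ _ hl]
    exact List.getElem_mem hl
  sound x h1 h2 := by
    obtain ⟨σ, hE, hl, -, h⟩ := exists_names hM hN h0 x
    have h3 : Ok M R (bcOf σ) := (hC.eqs σ hE).1 fun q hq => by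
      have := h1 _ (List.mem_map.2 ⟨q, hq, rfl⟩)
      rwa [hv_eq (h _ (cv_eqs hq).1), hv_eq (h _ (cv_eqs hq).2)] at this
    have h4 : OkN M R (bcOf σ) := (hC.prods σ hE).1 fun q hq => by
      have := h2 _ (List.mem_map.2 ⟨q, hq, rfl⟩)
      rwa [hv_eq (h _ (cv_prods hq).1), hv_eq (h _ (cv_prods hq).2.1),
        hv_eq (h _ (cv_prods hq).2.2)] at this
    obtain ⟨c, hc, hA⟩ := h3.chk hM h4
    exact ⟨c, hc, eq_enc hl.symm hA⟩
  complete c hc h1 h2 := by
    obtain ⟨σ, hE, hl, -, h⟩ := exists_names hM hN h0 (enc M.k M.L c)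
    rw [ofFn_enc] at hl
    have hA := agr_of_lst hl
    have h3 : Ok M R (bcOf σ) := hA.ok (ok_of_chk hM hc)
    have h4 : OkE M R (bcOf σ) := hA.okE ⟨h1, h2⟩
    constructor
    · intro q' hq'
      obtain ⟨q, hq, rfl⟩ := List.mem_map.1 hq'
      rw [hv_eq (h _ (cv_eqs hq).1), hv_eq (h _ (cv_eqs hq).2)]
      exact (hC.eqs σ hE).2 h3 q hq
    · intro q' hq' y
      obtain ⟨q, hq, rfl⟩ := List.mem_map.1 hq'
      rw [hv_eq (h _ (cv_prods hq).1), hv_eq (h _ (cv_prods hq).2.1),
        hv_eq (h _ (cv_prods hq).2.2)]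
      exact congrFun ((hC.prodsE σ hE).2 h4 q hq) y
  step z c hc i := by
    obtain ⟨σ, hE, hl, -, h⟩ := exists_names hM hN h0 (enc M.k M.L c)
    rw [ofFn_enc] at hl
    have hA := agr_of_lst hl
    have hchk := (H16.statC hM R c hc).1
    have hin : HoldsIn M σ c := ⟨hA.z, fun j hj => hA.t j (by omega), hA.w, hA.P, hA.Q⟩
    have hout := H118.holdsOut hM hE hin hpub hchk.t_le z
    have hA' : Agr M.k M.L ⟨σ (.oz z), fun j => σ (.ot z j), fun b => σ (.ow z b),
        fun b s => σ (.oP z b s), fun b => σ (.oQ z b)⟩ (ofC (M.stepC R z c)) :=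
      ⟨hout.z, fun j hj => hout.t j (by omega), hout.w, hout.P, hout.Q⟩
    have hmap : ((M.pp R).outN z).map σ = lst M.k M.L (ofC (M.stepC R z c)) := by
      rw [← hA'.lst_eq]
      exact tup_map (M.pp R) σ _ _ _ _ _
    have hl : (i : ℕ) < ((M.pp R).outN z).length := by
      have := congrArg List.length hmap
      rw [List.length_map, lst_length] at this
      rw [this]
      exact i.isLt
    have hmem : ((M.pp R).outN z).getD i .z ∈ (M.pp R).outN z := by
      rw [List.getD_eq_getElem _ _ hl]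
      exact List.getElem_mem hl
    have h5 : hv pub (topP M R).prog (enc M.k M.L c) ((topP M R).out z i) =
        σ (((M.pp R).outN z).getD i .z) := hv_eq (h _ (cv_outN hmem))
    rw [h5]
    show _ = (lst M.k M.L (ofC (M.stepC R z c))).getD i 0
    rw [← hmap, List.getD_eq_getElem _ _ hl,
      List.getD_eq_getElem _ _ (by rw [List.length_map]; exact hl), List.getElem_map]
  inj c c' h1 h2 h3 h4 h := Nice.enc_inj ⟨h1, h3⟩ ⟨h2, h4⟩ h

theorem chkNm (hM : M.Good) (hpub : ∀ s < M.L, pub (s + 1) = M.swE R s) : ChkNm M R pub where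
  eqs _ hE := H244.eqs_iff hM hE
  prods _ hE := H244.prods_iff hM hE hpub
  prodsE σ hE := by
    rw [show OkE M R (bcOf σ) ↔ _ from (H244.prodsE_iff hM hE hpub).symm]
    exact forall_congr' fun q => forall_congr' fun _ => funext_iff

/-- **The content program of a machine satisfies the conditions.** -/
theorem topOK [CharP F 2] (hM : M.Good) (h0 : pub 0 = fun _ => 1)
    (hpub : ∀ s < M.L, pub (s + 1) = M.swE R s) : TopOK M R pub (topP M R) (enc M.k M.L) :=
  topOK_of hM (nmOK (by have := hM.hk; exact this.trans' (by norm_num))) h0 hpub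
    (chkNm hM hpub) (H780.insK_prog hM R _ _ _ _)

end

end Vale.Agent.P330.H743
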