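import Vale.Agent.P330.H743.TopFin
import Vale.Agent.P330.H155.RSJ

/-!
# The content programs of the family of register systems
-/

set_option autoImplicit false

namespace Vale.Agent.P330.H743

open H16 H155
open Vale.Agent.P330.H933 (Fl pubF_zero pubF_succ)
open Vale.Agent.P330.H840 (leJ mpJ mpJ_good)

/-- **The content programs of the machines of the instances.** -/
noncomputable def topJ : TopJ where
  Pg I := topP (mpJ I) (rJ I)
  ok I := topOK (mpJ_good I) (pubF_zero _ _) fun _ hs => pubF_succ _ _ hs

theorem topJ_Pg (I : EndOfLine) : topJ.Pg I = topP (mpJ I) (rJ I) := rfl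

end Vale.Agent.P330.H743
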