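import Vale.Agent.P330.H743.TopJI
import Vale.Agent.P330.H155.StJ
import Vale.Agent.P330.H874.TopPT2

/-!
# The content programs of the instances in polynomial time

`pparJ`: the parameters of the content program of the instance `I a` are computable in polynomial
time.  Hence the instructions, the assertions and the outputs of `topJ.Pg (I a)` are.
-/

set_option autoImplicit false
set_option linter.unusedSectionVars false

namespace Vale.Agent.P330.H743

open H16 H155
open Vale.Agent.Lib.PolyTime
open Vale.Agent.P330.H657 (ss bb sp_eval_zero)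
open Vale.Agent.P330.H933 (Fl th eF rth LPar MPar RPar NPar FT cod sg)
open Vale.Agent.P330.H840 (lqJ dJ leJ mpJ mpJ_good kapJ)
open Vale.Agent.P330.H874 (PPar insMap)

/-! ### The scalars -/

/-- Values of the normalised subspace polynomials at the unit vectors, for all numbers. -/
theorem rth_sAll {l κ : ℕ} (h : κ ≤ eF l) (j i : ℕ) :
    (rth l κ h).s j (e κ i) = if j < κ ∧ i < κ then sg l (min j κ) (min i κ) else 0 := by
  by_cases hj : j < κ
  · by_cases hi : i < κ
    · rw [if_pos ⟨hj, hi⟩, min_eq_left hj.le, min_eq_left hi.le]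
      exact H933.rth_s h hj hi
    · rw [if_neg fun h' => hi h'.2]
      have h1 : e κ i = 0 := by
        funext x
        have : (x : ℕ) ≠ i := by omega
        simp [e, this]
      rw [h1]
      have h2 := (rth l κ h).s_add j 0 0
      rw [add_zero] at h2
      exact left_eq_add.1 h2
  · rw [if_neg fun h' => hj h'.1]
    change ss _ j _ = 0
    unfold ss
    rw [bb, dif_neg hj, sp_eval_zero, inv_zero, mul_zero]

/-! ### The parameters -/

section

variable {A : Set Word} {β : Type} [Enc β] {I : β → EndOfLine} (hI : PT A I)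

include hI

theorem mparJI : MPar A fun a => mpJ (I a) :=
  H633.mpar_mpI hI (H633.PT_kI hI) (H633.PBd_two_pow_kI hI)
    (H633.PT_aI hI) (H633.PBd_two_pow_aI hI) (H247.jpar hI H840.hC).PT_kap (H247.jpar hI H840.hC).pbd

theorem pt_offJ (z : Bool) : PT A fun a => (mpJ (I a)).off z := (mparJI hI).off z

/-- **The parameters of the content programs.** -/
theorem pparJ : PPar A (fun a => leJ (I a)) (fun a => (mpJ (I a)).pp (rJ (I a))) where
  pk := (mparJI hI).k
  bk := (mparJI hI).kN.bd
  pκ := (mparJI hI).κ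
  bκ := (mparJI hI).κN.bd
  pn := (mparJI hI).n
  pL := (mparJI hI).L
  bL := (mparJI hI).Lbd
  pdir := (mparJI hI).dir
  psc := by
    have hl : LPar A fun a => leJ (I a) := H247.lpar_leI hI
    have hκ := (mparJI hI).κN
    have h1 : NPar A fun q : β × ℕ × ℕ => min q.2.1 ((mpJ (I q.1)).κ) :=
      ⟨PT.min PT.snd'.fst (hκ.pt.comp PT.fst'),
        (hκ.comp PT.fst').bd.mono fun _ => min_le_right _ _⟩
    have h2 : NPar A fun q : β × ℕ × ℕ => min q.2.2 ((mpJ (I q.1)).κ) :=
      ⟨PT.min PT.snd'.snd (hκ.pt.comp PT.fst'),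
        (hκ.comp PT.fst').bd.mono fun _ => min_le_right _ _⟩
    have h3 := FT.sg (hl.comp (PT.fst' (A := A) (α := β) (β := ℕ × ℕ))) h1 h2
    have h4 : PT A fun q : β × ℕ × ℕ =>
        decide (q.2.1 < (mpJ (I q.1)).κ ∧ q.2.2 < (mpJ (I q.1)).κ) :=
      (PT.and (PT.lt PT.snd'.fst (hκ.pt.comp PT.fst'))
        (PT.lt PT.snd'.snd (hκ.pt.comp PT.fst'))).congr fun q => by simp
    refine (PT.ite h4 h3 (PT.const 0)).congr fun q => ?_
    have h5 : ((mpJ (I q.1)).pp (rJ (I q.1))).sc q.2.1 q.2.2 =
        if q.2.1 < (mpJ (I q.1)).κ ∧ q.2.2 < (mpJ (I q.1)).κ then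
          sg (leJ (I q.1)) (min q.2.1 (mpJ (I q.1)).κ) (min q.2.2 (mpJ (I q.1)).κ) else 0 :=
      rth_sAll (H840.kapJ_lt (I q.1)).le _ _
    beta_reduce
    rw [h5]
    split_ifs
    · rfl
    · exact H933.cod_zero.symm

end

/-! ### The fields of the program -/

theorem cpl_eq {F : Type} [Field F] (M : MP) (R : RSys M.κ F) :
    cpl M R = H874.cpl (M.pp R) M.off := by
  unfold cpl H874.cpl
  rw [base_length]
  rfl

/-- The register of a name in the content program of the instance. -/
noncomputable def rgJ (I : EndOfLine) (x : Nm) : ℕ := rg (mpJ I) (rJ I) x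

theorem rgJ_eq (I : EndOfLine) (x : Nm) :
    rgJ I x = (H874.cpl ((mpJ I).pp (rJ I)) (mpJ I).off).1 x := by
  rw [← cpl_eq]
  rfl

section

variable {A : Set Word} {β : Type} [Enc β] {I : β → EndOfLine} (hI : PT A I)

include hI

/-- **The registers of the names.** -/
theorem PT.rgJ {x : β → Nm} (hx : PT A x) : PT A fun a => H743.rgJ (I a) (x a) :=
  ((pparJ hI).reg (off := fun a => (mpJ (I a)).off) (pt_offJ hI) hx).congr fun a =>
    (rgJ_eq (I a) (x a)).symm

/-- **The instructions.** -/
theorem pt_progJ : PT A fun a => (topJ.Pg (I a)).prog.map (insMap (cod (leJ (I a)))) :=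
  ((pparJ hI).ins (off := fun a => (mpJ (I a)).off) (pt_offJ hI)).congr fun a => by
    rw [← cpl_eq]
    rfl

/-- The instructions in the format of the public record. -/
theorem pt_progN : PT A fun a =>
    (topJ.Pg (I a)).prog.map fun i => H874.insN (insMap (cod (leJ (I a))) i) :=
  ((pparJ hI).insN (off := fun a => (mpJ (I a)).off) (pt_offJ hI)).congr fun a => by
    rw [← cpl_eq]
    rfl

/-- **The asserted equalities.** -/
theorem pt_eqsJ : PT A fun a => (topJ.Pg (I a)).eqs :=
  ((pparJ hI).eqsR (off := fun a => (mpJ (I a)).off) (pt_offJ hI)).congr fun a => by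
    rw [← cpl_eq]
    rfl

/-- **The asserted products.** -/
theorem pt_prodsJ : PT A fun a => (topJ.Pg (I a)).prods :=
  ((pparJ hI).prodsR (off := fun a => (mpJ (I a)).off) (pt_offJ hI)).congr fun a => by
    rw [← cpl_eq]
    rfl

/-- **The outputs**, as a function of the number. -/
theorem pt_outJ {d : β → Bool} {i : β → ℕ} (hd : PT A d) (hi : PT A i) :
    PT A fun a => (topJ.Pg (I a)).out (d a) (i a) :=
  ((pparJ hI).outR' (off := fun a => (mpJ (I a)).off) (pt_offJ hI) hd hi).congr fun a => by
    rw [← cpl_eq]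
    rfl

/-- The list of the outputs. -/
theorem pt_outLJ (d : Bool) {n : β → ℕ} (hn : PT A n) (hb : PBd n) :
    PT A fun a => (List.range (n a)).map ((topJ.Pg (I a)).out d) :=
  PT.map (f := fun a i => (topJ.Pg (I a)).out d i) (PT.range hn hb)
    (pt_outJ (hI.comp PT.fst') (PT.const d) PT.snd')

/-- **The number of instructions.** -/
theorem pt_HLJ : PT A fun a => (topJ.Pg (I a)).HL :=
  (PT.length (pt_progJ hI)).congr fun _ => List.length_map ..

end

end Vale.Agent.P330.H743
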