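import Vale.Agent.P330.H16.MDefs
import Vale.Agent.P330.H780.Bits

/-!
# Basic lemmas for the content machine
-/

namespace Vale.Agent.P330.H743

open Finset H16

variable {κ : ℕ} {F : Type}

theorem pt_eq (p : ℕ) : pt κ p = H780.vec κ p := rfl

theorem num_eq (x : V2 κ) : num x = H780.num x := by
  rw [H780.num_eq_sum]
  unfold num
  refine sum_congr rfl fun j _ => ?_
  rcases H780.z2_cases (x j) with h | h
  · rw [h]; simp
  · rw [h]
    simp only [if_true]
    have : (1 : ZMod 2).val = 1 := rfl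
    rw [this, one_mul]

theorem num_pt {p : ℕ} (h : p < 2 ^ κ) : num (pt κ p) = p := by
  rw [num_eq, pt_eq, H780.num_vec h]

theorem pt_num (x : V2 κ) : pt κ (num x) = x := by
  rw [num_eq, pt_eq, H780.vec_num]

theorem num_lt (x : V2 κ) : num x < 2 ^ κ := by
  rw [num_eq]; exact H780.num_lt x

theorem pt_xor (a b : ℕ) : pt κ (a ^^^ b) = pt κ a + pt κ b := by
  rw [pt_eq, pt_eq, pt_eq, H780.vec_xor]

theorem num_add (x y : V2 κ) : num (x + y) = num x ^^^ num y := by
  rw [num_eq, num_eq, num_eq, H780.num_add]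

theorem e_eq (j : ℕ) : e κ j = pt κ (2 ^ j) := by
  rw [pt_eq, H780.vec_two_pow]; rfl

theorem add_self (x : V2 κ) : x + x = 0 := H780.add_self x

theorem xor_pow {i x : ℕ} (hx : x < 2 ^ i) : x ^^^ 2 ^ i = 2 ^ i + x := by
  apply Nat.eq_of_testBit_eq
  intro j
  rw [Nat.testBit_xor, Nat.testBit_two_pow]
  have := Nat.testBit_two_pow_mul_add 1 hx j
  rw [mul_one] at this
  rw [this]
  split_ifs with h
  · have : ¬ i = j := by omega
    simp [this]
  · rcases Nat.eq_or_lt_of_le (not_lt.1 h) with h4 | h4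
    · subst h4
      simp [Nat.testBit_lt_two_pow hx]
    · have h5 : x < 2 ^ j := hx.trans (Nat.pow_lt_pow_right (by norm_num) h4)
      have h6 : (1 : ℕ).testBit (j - i) = false := by
        rw [Nat.testBit_lt_two_pow]
        exact Nat.one_lt_two_pow (by omega)
      rw [Nat.testBit_lt_two_pow h5, h6]
      have : ¬ i = j := by omega
      simp [this]

section RS

variable [Field F] (R : RSys κ F)

theorem s_zero (j : ℕ) : R.s j 0 = 0 := by
  have h := R.s_add j 0 0
  rw [add_zero] at h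
  exact (add_eq_left.1 h.symm)

theorem s_sum {ι : Type} (j : ℕ) (t : Finset ι) (x : ι → V2 κ) :
    R.s j (∑ i ∈ t, x i) = ∑ i ∈ t, R.s j (x i) := by
  classical
  induction t using Finset.induction_on with
  | empty => rw [sum_empty, sum_empty, s_zero]
  | insert a t ha ih => rw [sum_insert ha, sum_insert ha, R.s_add, ih]

theorem s_pt_low {j : ℕ} (hj : j < κ) : ∀ i, i ≤ j → ∀ q, q < 2 ^ i → R.s j (pt κ q) = 0 := by
  intro i
  induction i with
  | zero =>
    intro _ q hq
    have : q = 0 := by simpa using hq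
    subst this
    have : pt κ 0 = 0 := by rw [pt_eq, H780.vec_zero]
    rw [this, s_zero]
  | succ i ih =>
    intro hi q hq
    rcases lt_or_ge q (2 ^ i) with h | h
    · exact ih (by omega) q h
    · have h3 : q - 2 ^ i < 2 ^ i := by rw [pow_succ] at hq; omega
      have e1 : q = (q - 2 ^ i) ^^^ 2 ^ i := by rw [xor_pow h3]; omega
      rw [e1, pt_xor, R.s_add, ih (by omega) _ h3, ← e_eq, R.s_low i j (by omega) hj, add_zero]

/-- `s j` of a point with top bit `j` is `1`. -/
theorem s_top {j : ℕ} (hj : j < κ) {p : ℕ} (h1 : 2 ^ j ≤ p) (h2 : p < 2 ^ (j + 1)) :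
    R.s j (pt κ p) = 1 := by
  have h3 : p - 2 ^ j < 2 ^ j := by rw [pow_succ] at h2; omega
  have e1 : p = (p - 2 ^ j) ^^^ 2 ^ j := by rw [xor_pow h3]; omega
  rw [e1, pt_xor, R.s_add, s_pt_low R hj j le_rfl _ h3, ← e_eq, R.s_self j hj, zero_add]

/-- The Lagrange polynomials on the slots. -/
theorem L_pt [CharP F 2] {k : ℕ} (hk : k ≤ κ) {p q : ℕ} (hp : p < 2 ^ k) (hq : q < 2 ^ k) :
    R.L k p (pt κ q) = if p = q then 1 else 0 := by
  unfold RSys.L
  split_ifs with h
  · subst h
    refine prod_eq_one fun j _ => ?_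
    rw [add_assoc, CharTwo.add_self_eq_zero, add_zero]
  · have hx : p ^^^ q ≠ 0 := fun h' => h (Nat.xor_eq_zero_iff.1 h')
    obtain ⟨j, hj1, hj2⟩ : ∃ j, 2 ^ j ≤ p ^^^ q ∧ p ^^^ q < 2 ^ (j + 1) :=
      ⟨Nat.log 2 (p ^^^ q), Nat.pow_log_le_self 2 hx, Nat.lt_pow_succ_log_self (by norm_num) _⟩
    have hjk : j < k := by
      by_contra hcon
      have h1 := Nat.xor_lt_two_pow hp hq
      have h2 : 2 ^ k ≤ 2 ^ j := Nat.pow_le_pow_right (by norm_num) (by omega)
      omega
    refine prod_eq_zero (mem_range.2 hjk) ?_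
    rw [add_assoc, ← R.s_add, ← pt_xor, Nat.xor_comm, s_top R (by omega) hj1 hj2,
      CharTwo.add_self_eq_zero]

theorem lde_pt [CharP F 2] {k : ℕ} (hk : k ≤ κ) (g : ℕ → F) {q : ℕ} (hq : q < 2 ^ k) :
    R.lde k g (pt κ q) = g q := by
  unfold RSys.lde
  rw [sum_eq_single q]
  · rw [L_pt R hk hq hq, if_pos rfl, mul_one]
  · intro p hp hpq
    rw [L_pt R hk (mem_range.1 hp) hq, if_neg hpq, mul_zero]
  · intro h
    exact absurd (mem_range.2 hq) h

theorem lde_congr {k : ℕ} {g g' : ℕ → F} (h : ∀ p < 2 ^ k, g p = g' p) :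
    R.lde k g = R.lde k g' := by
  funext x
  unfold RSys.lde
  exact sum_congr rfl fun p hp => by rw [h p (mem_range.1 hp)]

theorem lde_add {k : ℕ} (g g' : ℕ → F) (x : V2 κ) :
    R.lde k (fun p => g p + g' p) x = R.lde k g x + R.lde k g' x := by
  unfold RSys.lde
  rw [← sum_add_distrib]
  exact sum_congr rfl fun p _ => by rw [add_mul]

theorem lde_mul {k : ℕ} (v : F) (g : ℕ → F) (x : V2 κ) :
    R.lde k (fun p => v * g p) x = v * R.lde k g x := by
  unfold RSys.lde
  rw [mul_sum]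
  exact sum_congr rfl fun p _ => by rw [mul_assoc]

theorem lde_delta {k a : ℕ} (ha : a < 2 ^ k) (v : F) (x : V2 κ) :
    R.lde k (fun p => if p = a then v else 0) x = v * R.L k a x := by
  unfold RSys.lde
  rw [sum_eq_single a]
  · simp only [if_true]
  · intro p _ hpa
    simp only [if_neg hpa, zero_mul]
  · intro h
    exact absurd (mem_range.2 ha) h

theorem lde_zero {k : ℕ} (x : V2 κ) : R.lde k (fun _ => 0) x = 0 := by
  unfold RSys.lde
  exact sum_eq_zero fun p _ => by rw [zero_mul]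

end RS

end Vale.Agent.P330.H743
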