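import Vale.Agent.P330.H743.UBase

/-!
# The step of the contents of the machine

`MP.upd : M.Upd R`: the explicit step map on contents agrees with the step of states.
-/

namespace Vale.Agent.P330.H743

open Finset H16

set_option linter.unusedSectionVars false

variable {M : MP} {F : Type}

/-! ### The trace -/

theorem isIn_iff {x : ℕ} : M.isIn x = true ↔ x % 4 = 0 ∧ x < 4 * M.n := by
  simp [MP.isIn]

theorem isCopy_iff {x : ℕ} : M.isCopy x = true ↔ x % 4 = 1 ∨ (x % 4 = 0 ∧ 4 * M.n ≤ x) := by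
  simp [MP.isCopy]

theorem val_in {v : ℕ → Bool} {x : ℕ} (h1 : x % 4 = 0) (h2 : x < 4 * M.n) :
    M.val v x = v (x / 4) := by
  rw [MP.val, if_pos (isIn_iff.2 ⟨h1, h2⟩)]

theorem val_copy {v : ℕ → Bool} {x : ℕ} (h1 : x % 4 = 1 ∨ (x % 4 = 0 ∧ 4 * M.n ≤ x))
    (h2 : M.prev x < x) : M.val v x = M.val v (M.prev x) := by
  rw [MP.val, if_neg (by rw [isIn_iff]; omega), if_pos (isCopy_iff.2 h1), dif_pos h2]

theorem val_nand {v : ℕ → Bool} {x : ℕ} (h1 : x % 4 = 2) :
    M.val v x = !(M.val v (x - 2) && M.val v (x - 1)) := by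
  rw [MP.val, if_neg (by rw [isIn_iff]; omega), if_neg (by rw [isCopy_iff]; omega), if_pos h1]

theorem val_three {v : ℕ → Bool} {x : ℕ} (h1 : x % 4 = 3) : M.val v x = false := by
  rw [MP.val, if_neg (by rw [isIn_iff]; omega), if_neg (by rw [isCopy_iff]; omega),
    if_neg (by omega)]

theorem val_congr {v v' : ℕ → Bool} (h : ∀ i < M.n, v i = v' i) : M.val v = M.val v' := by
  funext x
  induction x using Nat.strong_induction_on with
  | _ x ih =>
    have h4 : x % 4 = 0 ∨ x % 4 = 1 ∨ x % 4 = 2 ∨ x % 4 = 3 := by omega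
    by_cases h2 : x % 4 = 0 ∧ x < 4 * M.n
    · rw [val_in h2.1 h2.2, val_in h2.1 h2.2]
      exact h _ (by omega)
    · by_cases h3 : x % 4 = 1 ∨ (x % 4 = 0 ∧ 4 * M.n ≤ x)
      · by_cases hp : M.prev x < x
        · rw [val_copy h3 hp, val_copy h3 hp, ih _ hp]
        · rw [MP.val, if_neg (by rw [isIn_iff]; exact h2), if_pos (isCopy_iff.2 h3), dif_neg hp,
            MP.val, if_neg (by rw [isIn_iff]; exact h2), if_pos (isCopy_iff.2 h3), dif_neg hp]
      · by_cases h5 : x % 4 = 2
        · rw [val_nand h5, val_nand h5, ih _ (by omega), ih _ (by omega)]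
        · rw [val_three (by omega), val_three (by omega)]

theorem val_input {v : ℕ → Bool} {i : ℕ} (h : i < M.n) : M.val v (4 * i) = v i := by
  rw [val_in (by omega) (by omega)]
  congr 1
  omega

/-! ### Routing -/

theorem xor_lt (hM : M.Good) {s x : ℕ} (hs : s < M.L) (hx : x < 2 ^ M.k) :
    x ^^^ 2 ^ M.dir s < 2 ^ M.k :=
  Nat.xor_lt_two_pow hx (Nat.pow_lt_pow_right (by norm_num) (hM.dir_lt s hs))

theorem xor_xor (x y : ℕ) : (x ^^^ y) ^^^ y = x := by
  rw [Nat.xor_assoc, Nat.xor_self, Nat.xor_zero]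

theorem rt_congr {α : Type} (hM : M.Good) {w w' : ℕ → α} (h : ∀ x < 2 ^ M.k, w x = w' x) :
    ∀ s ≤ M.L, ∀ x < 2 ^ M.k, M.rt w s x = M.rt w' s x := by
  intro s
  induction s with
  | zero => exact fun _ => h
  | succ s ih =>
    intro hs x hx
    have h1 := ih (by omega)
    simp only [MP.rt, MP.stg]
    rw [h1 x hx, h1 _ (xor_lt hM (by omega) hx)]

theorem pos_lt (hM : M.Good) {a : ℕ} (ha : a < 2 ^ M.k) : ∀ s ≤ M.L, M.pos a s < 2 ^ M.k := by
  intro s
  induction s with
  | zero => exact fun _ => ha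
  | succ s ih =>
    intro hs
    have h1 := ih (by omega)
    simp only [MP.pos]
    split_ifs
    · exact xor_lt hM (by omega) h1
    · exact h1

theorem rt_delta [Field F] (hM : M.Good) (w : ℕ → F) (v : F) {a : ℕ} (ha : a < 2 ^ M.k) :
    ∀ s ≤ M.L, ∀ x < 2 ^ M.k, M.rt (fun y => w y + v * (if y = a then 1 else 0)) s x =
      M.rt w s x + v * (if x = M.pos a s then 1 else 0) := by
  intro s
  induction s with
  | zero => intro _ x _; rfl
  | succ s ih =>
    intro hs x hx
    have h1 := ih (by omega)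
    have hp := pos_lt hM ha s (by omega)
    simp only [MP.rt, MP.stg, MP.pos]
    by_cases hsw : M.sw s x = true
    · rw [if_pos hsw, if_pos hsw, h1 _ (xor_lt hM (by omega) hx)]
      congr 2
      refine if_congr ?_ rfl rfl
      constructor
      · intro h
        rw [← h, hM.sw_symm s (by omega) x hx, if_pos hsw, xor_xor]
      · intro h
        by_cases h2 : M.sw s (M.pos a s) = true
        · rw [if_pos h2] at h
          rw [h, xor_xor]
        · rw [if_neg h2] at h
          rw [h] at hsw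
          exact absurd hsw h2
    · rw [if_neg hsw, if_neg hsw, h1 x hx]
      congr 2
      refine if_congr ?_ rfl rfl
      constructor
      · intro h
        rw [← h, if_neg hsw]
      · intro h
        by_cases h2 : M.sw s (M.pos a s) = true
        · rw [if_pos h2] at h
          rw [h, hM.sw_symm s (by omega) _ hp] at hsw
          exact absurd h2 hsw
        · rw [if_neg h2] at h
          exact h

/-! ### The contents of a bank -/

variable [Field F] (R : RSys M.κ F)

/-- The data word. -/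
def cw (M : MP) (g : ℕ → F) : Ct M.κ F := dw M.κ M.k g

/-- The products of the stages. -/
def cP (M : MP) (R : RSys M.κ F) (g : ℕ → F) (i : ℕ) : Ct M.κ F := fun x =>
  if i < M.L then M.swE R i x *
    R.lde M.k (fun p => M.rt g i p + M.rt g i (p ^^^ 2 ^ M.dir i)) x else 0

/-- The product of the gates. -/
def cQ (M : MP) (R : RSys M.κ F) (g : ℕ → F) : Ct M.κ F := fun x =>
  R.lde M.k (fun p => if p % 4 = 2 then g (p ^^^ 2) else 0) x *
    R.lde M.k (fun p => if p % 4 = 2 then g (p ^^^ 3) else 0) x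

theorem cw_congr {g g' : ℕ → F} (h : ∀ y < 2 ^ M.k, g y = g' y) : cw M g = cw M g' := by
  funext x
  unfold cw dw
  split_ifs with h1
  · exact h _ h1
  · rfl

theorem cP_congr (hM : M.Good) {g g' : ℕ → F} (h : ∀ y < 2 ^ M.k, g y = g' y) :
    cP M R g = cP M R g' := by
  funext i x
  unfold cP
  split_ifs with h1
  · rw [lde_congr R fun p hp => ?_]
    rw [rt_congr hM h i h1.le p hp, rt_congr hM h i h1.le _ (xor_lt hM h1 hp)]
  · rfl

theorem xor_small_lt (hM : M.Good) {p c : ℕ} (hp : p < 2 ^ M.k) (hc : c < 4) :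
    p ^^^ c < 2 ^ M.k := by
  refine Nat.xor_lt_two_pow hp (lt_of_lt_of_le hc ?_)
  calc 4 = 2 ^ 2 := by norm_num
    _ ≤ 2 ^ M.k := Nat.pow_le_pow_right (by norm_num) hM.hk

theorem cQ_congr (hM : M.Good) {g g' : ℕ → F} (h : ∀ y < 2 ^ M.k, g y = g' y) :
    cQ M R g = cQ M R g' := by
  funext x
  unfold cQ
  rw [lde_congr R (g := fun p => if p % 4 = 2 then g (p ^^^ 2) else 0)
      (g' := fun p => if p % 4 = 2 then g' (p ^^^ 2) else 0) fun p hp => by
        rw [h _ (xor_small_lt hM hp (by norm_num))],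
    lde_congr R (g := fun p => if p % 4 = 2 then g (p ^^^ 3) else 0)
      (g' := fun p => if p % 4 = 2 then g' (p ^^^ 3) else 0) fun p hp => by
        rw [h _ (xor_small_lt hM hp (by norm_num))]]

theorem cont_w (s : MP.State) (b : Bool) :
    (M.cont R s).w b = cw M fun y => bF F (M.bank s b y) := rfl

theorem cont_P (s : MP.State) (b : Bool) :
    (M.cont R s).P b = cP M R fun y => bF F (M.bank s b y) := rfl

theorem cont_Q (s : MP.State) (b : Bool) :
    (M.cont R s).Q b = cQ M R fun y => bF F (M.bank s b y) := rfl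

/-! ### The routed word and the value of the rule -/

variable [CharP F 2]

theorem k_le (hM : M.Good) : M.k ≤ M.κ := by have := hM.hκ; omega

theorem lt_pow (hM : M.Good) {p : ℕ} (hp : p < 2 ^ M.k) : p < 2 ^ M.κ :=
  lt_of_lt_of_le hp (Nat.pow_le_pow_right (by norm_num) (k_le hM))

theorem cw_pt (hM : M.Good) (g : ℕ → F) {y : ℕ} (hy : y < 2 ^ M.k) : cw M g (pt M.κ y) = g y := by
  unfold cw dw
  rw [num_pt (lt_pow hM hy), if_pos hy]

theorem fw_pt (hM : M.Good) (g : ℕ → F) : ∀ i ≤ M.L, ∀ y < 2 ^ M.k,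
    M.fw (cw M g) (cP M R g) i (pt M.κ y) = M.rt g i y := by
  intro i
  induction i with
  | zero => intro _ y hy; exact cw_pt hM g hy
  | succ i ih =>
    intro hi y hy
    have h1 := ih (by omega) y hy
    simp only [MP.fw]
    rw [h1]
    unfold pre cP MP.swE
    rw [num_pt (lt_pow hM hy), if_pos hy, if_pos (by omega), lde_pt R (k_le hM) _ hy,
      lde_pt R (k_le hM) _ hy]
    simp only [MP.rt, MP.stg, bF]
    by_cases hsw : M.sw i y = true
    · rw [if_pos hsw, if_pos hsw, one_mul, ← add_assoc, CharTwo.add_self_eq_zero, zero_add]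
    · rw [if_neg hsw, if_neg hsw, zero_mul, add_zero]

theorem cQ_pt (hM : M.Good) (g : ℕ → F) {y : ℕ} (hy : y < 2 ^ M.k) (h2 : y % 4 = 2) :
    cQ M R g (pt M.κ y) = g (y ^^^ 2) * g (y ^^^ 3) := by
  unfold cQ
  rw [lde_pt R (k_le hM) _ hy, lde_pt R (k_le hM) _ hy, if_pos h2, if_pos h2]

theorem xor_two {y : ℕ} (h : y % 4 = 2) : y ^^^ 2 = y - 2 := by
  have h1 : (y ^^^ 2) / 4 = y / 4 := by
    rw [show (4 : ℕ) = 2 ^ 2 by norm_num, Nat.xor_div_two_pow]
    simp
  have h2 : (y ^^^ 2) % 4 = 0 := by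
    rw [show (4 : ℕ) = 2 ^ 2 by norm_num, Nat.xor_mod_two_pow, show (2 : ℕ) ^ 2 = 4 by norm_num, h]
    rfl
  omega

theorem xor_three {y : ℕ} (h : y % 4 = 2) : y ^^^ 3 = y - 1 := by
  have h1 : (y ^^^ 3) / 4 = y / 4 := by
    rw [show (4 : ℕ) = 2 ^ 2 by norm_num, Nat.xor_div_two_pow]
    simp
  have h2 : (y ^^^ 3) % 4 = 1 := by
    rw [show (4 : ℕ) = 2 ^ 2 by norm_num, Nat.xor_mod_two_pow, show (2 : ℕ) ^ 2 = 4 by norm_num, h]
    rfl
  omega

theorem xor_mod_four (a c : ℕ) : (a ^^^ c) % 4 = ((a % 4) ^^^ (c % 4)) := by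
  rw [show (4 : ℕ) = 2 ^ 2 by norm_num, Nat.xor_mod_two_pow]

theorem bF_nand (p q : Bool) : (1 : F) + bF F p * bF F q = bF F (!(p && q)) := by
  cases p <;> cases q <;> simp [bF, CharTwo.add_self_eq_zero]

/-- The rule gives the value of the next slot. -/
theorem vnext_eq (hM : M.Good) (s : MP.State) {a : ℕ} (ha : a < 2 ^ M.k) (hat : a ≤ s.t) :
    M.vnext (M.cont R s) a = bF F (M.val (M.nx s.z s.x) a) := by
  have hz : ¬ (!s.z) = s.z := by cases s.z <;> decide
  have hnum : num (pt M.κ a) = a := num_pt (lt_pow hM ha)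
  have hbank : ∀ y < a, M.bank s (!s.z) y = M.val (M.nx s.z s.x) y := fun y hy => by
    unfold MP.bank
    rw [if_neg hz, decide_eq_true (by omega : y < s.t), Bool.true_and]
  have hin : M.inp (M.cont R s) (!s.z) = tr (pt M.κ (M.off s.z))
      (cw M fun y => bF F (M.bank s s.z y)) := by
    show (if (!s.z) = s.z then _ else _) = _
    rw [if_neg hz]
    rfl
  have e1 : M.vnext (M.cont R s) a =
      (if M.isIn a then M.inp (M.cont R s) (!s.z) (pt M.κ a) else 0) +
      (if M.isCopy a then M.fw (cw M fun y => bF F (M.bank s (!s.z) y))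
        (cP M R fun y => bF F (M.bank s (!s.z) y)) M.L (pt M.κ a) else 0) +
      (if isNand a then 1 + pre (2 ^ M.k) (cQ M R fun y => bF F (M.bank s (!s.z) y)) (pt M.κ a)
        else 0) := by
    unfold MP.vnext MP.rhs msk
    rw [hnum]
    rfl
  rw [e1]
  have h4 : a % 4 = 0 ∨ a % 4 = 1 ∨ a % 4 = 2 ∨ a % 4 = 3 := by omega
  by_cases h2 : a % 4 = 0 ∧ a < 4 * M.n
  · rw [if_pos (isIn_iff.2 h2), if_neg (by rw [isCopy_iff]; omega),
      if_neg (by unfold isNand; rw [decide_eq_true_eq]; omega), add_zero, add_zero, hin]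
    unfold tr
    rw [← pt_xor, cw_pt hM _ (Nat.xor_lt_two_pow ha (hM.off_lt _)), val_in h2.1 h2.2]
    unfold MP.bank MP.nx
    rw [if_pos rfl]
    congr 3
    omega
  · by_cases h3 : a % 4 = 1 ∨ (a % 4 = 0 ∧ 4 * M.n ≤ a)
    · have hc := isCopy_iff.2 h3
      have hp := hM.prev_lt a ha hc
      rw [if_neg (by rw [isIn_iff]; exact h2), if_pos hc,
        if_neg (by unfold isNand; rw [decide_eq_true_eq]; omega), add_zero, zero_add,
        fw_pt R hM _ _ le_rfl _ ha, hM.route _ _ _ ha hc, hbank _ hp, val_copy h3 hp]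
    · by_cases h5 : a % 4 = 2
      · rw [if_neg (by rw [isIn_iff]; exact h2), if_neg (by rw [isCopy_iff]; exact h3),
          if_pos (by unfold isNand; rw [decide_eq_true_eq]; exact h5), zero_add, zero_add]
        unfold pre
        rw [hnum, if_pos ha, cQ_pt R hM _ ha h5, xor_two h5, xor_three h5, hbank _ (by omega),
          hbank _ (by omega), bF_nand, val_nand h5]
      · rw [if_neg (by rw [isIn_iff]; exact h2), if_neg (by rw [isCopy_iff]; exact h3),
          if_neg (by unfold isNand; rw [decide_eq_true_eq]; exact h5), add_zero, add_zero,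
          val_three (by omega)]
        rfl

/-! ### Adding a value in a slot -/

theorem cw_delta (g : ℕ → F) (v : F) {a : ℕ} (ha : a < 2 ^ M.k) :
    cw M (fun y => g y + v * (if y = a then 1 else 0)) =
      fun x => cw M g x + v * (if num x = a then 1 else 0) := by
  funext x
  unfold cw dw
  by_cases h1 : num x < 2 ^ M.k
  · simp only [if_pos h1]
  · have h2 : ¬ num x = a := by omega
    simp only [if_neg h1, if_neg h2, mul_zero, add_zero]

theorem cP_delta (hM : M.Good) (g : ℕ → F) (v : F) {a : ℕ} (ha : a < 2 ^ M.k) {i : ℕ}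
    (hi : i < M.L) : cP M R (fun y => g y + v * (if y = a then 1 else 0)) i =
      fun x => cP M R g i x + v * (M.swE R i x *
        (R.L M.k (M.pos a i) x + R.L M.k (M.pos a i ^^^ 2 ^ M.dir i) x)) := by
  funext x
  have hp := pos_lt hM ha i hi.le
  unfold cP
  rw [if_pos hi, if_pos hi]
  rw [lde_congr R (g' := fun p => (M.rt g i p + M.rt g i (p ^^^ 2 ^ M.dir i)) +
    ((if p = M.pos a i then v else 0) + (if p = M.pos a i ^^^ 2 ^ M.dir i then v else 0)))
    fun p hp => ?_]
  · rw [lde_add R (fun p => M.rt g i p + M.rt g i (p ^^^ 2 ^ M.dir i)) (fun p =>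
      (if p = M.pos a i then v else 0) + (if p = M.pos a i ^^^ 2 ^ M.dir i then v else 0)),
      lde_add R (fun p => if p = M.pos a i then v else 0), lde_delta R hp,
      lde_delta R (xor_lt hM hi hp)]
    ring
  · rw [rt_delta hM g v ha i hi.le p hp, rt_delta hM g v ha i hi.le _ (xor_lt hM hi hp)]
    have e1 : (if p ^^^ 2 ^ M.dir i = M.pos a i then (1 : F) else 0) =
        if p = M.pos a i ^^^ 2 ^ M.dir i then 1 else 0 := by
      refine if_congr ⟨fun h => ?_, fun h => ?_⟩ rfl rfl
      · rw [← h, xor_xor]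
      · rw [h, xor_xor]
    rw [e1]
    simp only [mul_ite, mul_one, mul_zero]
    ring

theorem cQ_delta (hM : M.Good) (g : ℕ → F) (v : F) {a : ℕ} (ha : a < 2 ^ M.k) :
    cQ M R (fun y => g y + v * (if y = a then 1 else 0)) = fun x => cQ M R g x + v *
      (if a % 4 = 0 then R.L M.k (a ^^^ 2) x * R.ldeW M.k (M.inB (cw M g)) x
      else if a % 4 = 1 then R.L M.k (a ^^^ 3) x * R.ldeW M.k (M.inA (cw M g)) x else 0) := by
  funext x
  have hA : R.ldeW M.k (M.inA (cw M g)) = R.lde M.k fun p => if p % 4 = 2 then g (p ^^^ 2) else 0 := by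
    unfold RSys.ldeW MP.inA msk isNand tr
    refine lde_congr R fun p hp => ?_
    rw [num_pt (lt_pow hM hp), ← pt_xor, cw_pt hM _ (xor_small_lt hM hp (by norm_num))]
    simp only [decide_eq_true_eq]
  have hB : R.ldeW M.k (M.inB (cw M g)) = R.lde M.k fun p => if p % 4 = 2 then g (p ^^^ 3) else 0 := by
    unfold RSys.ldeW MP.inB msk isNand tr
    refine lde_congr R fun p hp => ?_
    rw [num_pt (lt_pow hM hp), ← pt_xor, cw_pt hM _ (xor_small_lt hM hp (by norm_num))]
    simp only [decide_eq_true_eq]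
  rw [hA, hB]
  -- the change of the two factors
  have key : ∀ c : ℕ, c < 4 → ∀ p < 2 ^ M.k,
      (if p % 4 = 2 then g (p ^^^ c) + v * (if p ^^^ c = a then 1 else 0) else 0) =
      (if p % 4 = 2 then g (p ^^^ c) else 0) +
        (if p = a ^^^ c then (if (a ^^^ c) % 4 = 2 then v else 0) else 0) := by
    intro c hc p hp
    have e1 : (p ^^^ c = a) ↔ p = a ^^^ c :=
      ⟨fun h => by rw [← h, xor_xor], fun h => by rw [h, xor_xor]⟩
    by_cases h1 : p % 4 = 2
    · rw [if_pos h1, if_pos h1]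
      by_cases h2 : p = a ^^^ c
      · rw [if_pos (e1.2 h2), if_pos h2, ← h2, if_pos h1, mul_one]
      · rw [if_neg fun h => h2 (e1.1 h), if_neg h2, mul_zero]
    · rw [if_neg h1, if_neg h1]
      by_cases h2 : p = a ^^^ c
      · rw [if_pos h2, ← h2, if_neg h1, add_zero]
      · rw [if_neg h2, add_zero]
  unfold cQ
  rw [lde_congr R (key 2 (by norm_num)), lde_congr R (key 3 (by norm_num)), lde_add, lde_add,
    lde_delta R (xor_small_lt hM ha (by norm_num)), lde_delta R (xor_small_lt hM ha (by norm_num))]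
  have h4 : a % 4 = 0 ∨ a % 4 = 1 ∨ a % 4 = 2 ∨ a % 4 = 3 := by omega
  rw [xor_mod_four a 2, xor_mod_four a 3]
  rcases h4 with h | h | h | h <;> rw [h]
  · simp only [show ((0 : ℕ) ^^^ 2 % 4) = 2 by decide, show ((0 : ℕ) ^^^ 3 % 4) = 3 by decide]
    norm_num
    ring
  · simp only [show ((1 : ℕ) ^^^ 2 % 4) = 3 by decide, show ((1 : ℕ) ^^^ 3 % 4) = 2 by decide]
    norm_num
    ring
  · simp only [show ((2 : ℕ) ^^^ 2 % 4) = 0 by decide, show ((2 : ℕ) ^^^ 3 % 4) = 1 by decide]
    norm_num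
  · simp only [show ((3 : ℕ) ^^^ 2 % 4) = 1 by decide, show ((3 : ℕ) ^^^ 3 % 4) = 0 by decide]
    norm_num

/-- The contents of bank `b` are those of the data `g'`, when `v` is added in slot `a`. -/
theorem addS_eq (hM : M.Good) (s s' : MP.State) (v : F) {a : ℕ} (ha : a < 2 ^ M.k) (b : Bool)
    (hb : ∀ y < 2 ^ M.k, bF F (M.bank s' b y) =
      bF F (M.bank s b y) + v * (if y = a then 1 else 0))
    (hb' : ∀ b' ≠ b, ∀ y < 2 ^ M.k, M.bank s' b' y = M.bank s b' y) (hz : s'.z = s.z) :
    ({ M.addS R (M.cont R s) b a v with t := s'.t } : Cont M.κ F) = M.cont R s' := by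
  apply Cont.ext
  · exact hz.symm
  · rfl
  · funext b'
    rw [cont_w]
    by_cases h : b' = b
    · subst h
      rw [cw_congr hb, cw_delta _ _ ha]
      simp only [MP.addS, if_true]
      rfl
    · rw [cw_congr fun y hy => by rw [hb' b' h y hy]]
      simp only [MP.addS, if_neg h]
      rfl
  · funext b' i
    rw [cont_P]
    by_cases h : b' = b
    · subst h
      rw [cP_congr R hM hb]
      by_cases hi : i < M.L
      · rw [cP_delta R hM _ _ ha hi]
        simp only [MP.addS, hi, and_self, if_true]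
        rfl
      · simp only [MP.addS, hi, and_false, if_false]
        rw [cont_P]
        funext x
        unfold cP
        rw [if_neg hi, if_neg hi]
    · rw [cP_congr R hM fun y hy => by rw [hb' b' h y hy]]
      simp only [MP.addS, h, false_and, if_false]
      rfl
  · funext b'
    rw [cont_Q]
    by_cases h : b' = b
    · subst h
      rw [cQ_congr R hM hb, cQ_delta R hM _ _ ha]
      simp only [MP.addS, if_true]
      rfl
    · rw [cQ_congr R hM fun y hy => by rw [hb' b' h y hy]]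
      simp only [MP.addS, if_neg h]
      rfl

/-! ### The step -/

theorem not_ne (z : Bool) : ¬ (!z) = z := by cases z <;> decide

theorem eq_not {b z : Bool} (h : b ≠ z) : b = !z := by revert h; cases b <;> cases z <;> decide

theorem bank_z (s : MP.State) (y : ℕ) : M.bank s s.z y = M.val s.x y := by
  unfold MP.bank
  rw [if_pos rfl]

theorem bank_nz (s : MP.State) (y : ℕ) :
    M.bank s (!s.z) y = (decide (y < s.t) && M.val (M.nx s.z s.x) y) := by
  unfold MP.bank
  rw [if_neg (not_ne _)]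

/-- Filling a slot. -/
theorem fill (hM : M.Good) (s : MP.State) (hs : s.t < 2 ^ M.k) :
    M.stepC R s.z (M.cont R s) = M.cont R ⟨s.z, s.x, s.t + 1⟩ := by
  have e1 : M.stepC R s.z (M.cont R s) =
      { M.addS R (M.cont R s) (!s.z) s.t (M.vnext (M.cont R s) s.t) with t := s.t + 1 } := by
    unfold MP.stepC
    show (if s.z = s.z then (if s.t = 2 ^ M.k then _ else _) else _) = _
    rw [if_pos rfl, if_neg hs.ne]
    rfl
  rw [e1, vnext_eq R hM s hs le_rfl]
  refine addS_eq R hM s ⟨s.z, s.x, s.t + 1⟩ _ hs (!s.z) (fun y _ => ?_) (fun b' hb' y _ => ?_) rfl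
  · rw [show M.bank ⟨s.z, s.x, s.t + 1⟩ (!s.z) y =
      (decide (y < s.t + 1) && M.val (M.nx s.z s.x) y) from bank_nz ⟨s.z, s.x, s.t + 1⟩ y,
      bank_nz s]
    rcases lt_trichotomy y s.t with h | h | h
    · rw [decide_eq_true h, decide_eq_true (by omega), if_neg h.ne, mul_zero, add_zero]
    · subst h
      simp [bF]
    · rw [decide_eq_false (by omega), decide_eq_false (by omega), if_neg (by omega), mul_zero,
        add_zero]
  · have h := eq_not hb'
    rw [Bool.not_not] at h
    rw [h]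
    exact (bank_z ⟨s.z, s.x, s.t + 1⟩ y).trans (bank_z s y).symm

/-- Erasing a slot. -/
theorem erase (hM : M.Good) (s : MP.State) (h0 : 0 < s.t) (hs : s.t ≤ 2 ^ M.k) :
    M.stepC R (!s.z) (M.cont R s) = M.cont R ⟨s.z, s.x, s.t - 1⟩ := by
  have e1 : M.stepC R (!s.z) (M.cont R s) =
      { M.addS R (M.cont R s) (!s.z) (s.t - 1) (M.vnext (M.cont R s) (s.t - 1)) with
        t := s.t - 1 } := by
    unfold MP.stepC
    show (if s.z = !s.z then _ else (if s.t = 0 then _ else _)) = _
    rw [if_neg fun h => not_ne _ h.symm, if_neg (by omega)]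
    rfl
  have hlt : s.t - 1 < 2 ^ M.k := by omega
  rw [e1, vnext_eq R hM s hlt (by omega)]
  refine addS_eq R hM s ⟨s.z, s.x, s.t - 1⟩ _ hlt (!s.z) (fun y _ => ?_)
    (fun b' hb' y _ => ?_) rfl
  · rw [show M.bank ⟨s.z, s.x, s.t - 1⟩ (!s.z) y =
      (decide (y < s.t - 1) && M.val (M.nx s.z s.x) y) from bank_nz ⟨s.z, s.x, s.t - 1⟩ y,
      bank_nz s]
    rcases lt_trichotomy y (s.t - 1) with h | h | h
    · rw [decide_eq_true h, decide_eq_true (by omega), if_neg h.ne, mul_zero, add_zero]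
    · subst h
      rw [decide_eq_true (by omega : s.t - 1 < s.t), decide_eq_false (by omega), if_pos rfl,
        mul_one, Bool.true_and, Bool.false_and, CharTwo.add_self_eq_zero]
      rfl
    · rw [decide_eq_false (by omega), decide_eq_false (by omega), if_neg (by omega), mul_zero,
        add_zero]
  · have h := eq_not hb'
    rw [Bool.not_not] at h
    rw [h]
    exact (bank_z ⟨s.z, s.x, s.t - 1⟩ y).trans (bank_z s y).symm

/-- Contents of states are equal if the banks agree on the slots. -/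
theorem cont_eq (hM : M.Good) {z' : Bool} {t : ℕ} {s s' : MP.State} (b : Bool → Bool)
    (h : ∀ c, ∀ y < 2 ^ M.k, M.bank s (b c) y = M.bank s' c y) (hz : z' = s'.z) (ht : t = s'.t) :
    (⟨z', t, fun c => (M.cont R s).w (b c), fun c => (M.cont R s).P (b c),
      fun c => (M.cont R s).Q (b c)⟩ : Cont M.κ F) = M.cont R s' := by
  have h' : ∀ c, ∀ y < 2 ^ M.k, bF F (M.bank s (b c) y) = bF F (M.bank s' c y) :=
    fun c y hy => by rw [h c y hy]
  apply Cont.ext
  · exact hz
  · exact ht
  · funext c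
    exact cw_congr (h' c)
  · funext c
    exact cP_congr R hM (h' c)
  · funext c
    exact cQ_congr R hM (h' c)

/-- The exchange of the banks. -/
theorem swap (hM : M.Good) (s : MP.State) (hs : s.t = 0) :
    M.stepC R (!s.z) (M.cont R s) = M.cont R ⟨!s.z, s.x, 0⟩ := by
  have e1 : M.stepC R (!s.z) (M.cont R s) = ⟨!s.z, s.t, fun b => (M.cont R s).w (!b),
      fun b => (M.cont R s).P (!b), fun b => (M.cont R s).Q (!b)⟩ := by
    unfold MP.stepC
    show (if s.z = !s.z then _ else (if s.t = 0 then _ else _)) = _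
    rw [if_neg fun h => not_ne _ h.symm, if_pos hs]
    rfl
  rw [e1]
  refine cont_eq R hM (fun b => !b) (fun c y _ => ?_) rfl hs
  by_cases hc : c = s.z
  · subst hc
    rw [bank_nz, hs]
    have := bank_nz (M := M) ⟨!s.z, s.x, 0⟩ y
    simp only [Bool.not_not] at this
    rw [this]
    simp
  · rw [eq_not hc, Bool.not_not, bank_z]
    exact (bank_z ⟨!s.z, s.x, 0⟩ y).symm

theorem flip (s : MP.State) (hs : s.t = 2 ^ M.k) :
    M.stepC R s.z (M.cont R s) = { M.cont R s with z := !s.z } := by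
  unfold MP.stepC
  show (if s.z = s.z then (if s.t = 2 ^ M.k then _ else _) else _) = _
  rw [if_pos rfl, if_pos hs]
  rfl

theorem flip_eq (hM : M.Good) (s : MP.State) (hs : s.t = 2 ^ M.k)
    (h : ∀ i < M.n, M.nx (!s.z) (M.nx s.z s.x) i = s.x i) :
    ({ M.cont R s with z := !s.z } : Cont M.κ F) =
      M.cont R ⟨!s.z, fun i => decide (i < M.n) && M.nx s.z s.x i, 2 ^ M.k⟩ := by
  have e1 : M.val (fun i => decide (i < M.n) && M.nx s.z s.x i) = M.val (M.nx s.z s.x) :=
    val_congr fun i hi => by simp [hi]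
  refine cont_eq R hM (fun b => b) (fun c y hy => ?_) rfl hs
  by_cases hc : c = s.z
  · subst hc
    have h1 := bank_nz (M := M) ⟨!s.z, fun i => decide (i < M.n) && M.nx s.z s.x i, 2 ^ M.k⟩ y
    simp only [Bool.not_not] at h1
    rw [bank_z, h1, decide_eq_true hy, Bool.true_and]
    have h2 : M.nx (!s.z) (fun i => decide (i < M.n) && M.nx s.z s.x i) =
        M.nx (!s.z) (M.nx s.z s.x) := by
      funext i
      unfold MP.nx at e1 ⊢
      rw [e1]
    rw [h2, val_congr h]
  · rw [eq_not hc, bank_nz, hs, decide_eq_true hy, Bool.true_and]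
    have h1 := bank_z (M := M) ⟨!s.z, fun i => decide (i < M.n) && M.nx s.z s.x i, 2 ^ M.k⟩ y
    simp only at h1
    rw [h1, e1]

theorem bF_inj {p q : Bool} (h : bF F p = bF F q) : p = q := by
  cases p <;> cases q <;> simp_all [bF]

/-- The data words determine the banks. -/
theorem bank_of_w (hM : M.Good) {s s' : MP.State} {b : Bool}
    (h : (M.cont R s).w b = (M.cont R s').w b) {y : ℕ} (hy : y < 2 ^ M.k) :
    M.bank s b y = M.bank s' b y := by
  rw [cont_w, cont_w] at h
  have h1 := congrFun h (pt M.κ y)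
  rw [cw_pt hM _ hy, cw_pt hM _ hy] at h1
  exact bF_inj h1

theorem inj (hM : M.Good) (s s' : MP.State) (hx : ∀ i, M.n ≤ i → s.x i = false)
    (hx' : ∀ i, M.n ≤ i → s'.x i = false) (h : M.cont R s = M.cont R s') : s = s' := by
  have hz : s.z = s'.z := congrArg Cont.z h
  have ht : s.t = s'.t := congrArg Cont.t h
  refine MP.State.ext hz ?_ ht
  funext i
  by_cases hi : i < M.n
  · have h4 : 4 * i < 2 ^ M.k := by have := hM.hnk; omega
    have h1 := bank_of_w R hM (congrFun (congrArg Cont.w h) s.z) h4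
    rw [bank_z, val_input hi, hz, bank_z, val_input hi] at h1
    exact h1
  · rw [hx i (by omega), hx' i (by omega)]

theorem flip_valid (hM : M.Good) (s : MP.State) (hs : s.t = 2 ^ M.k) :
    M.ValidC R { M.cont R s with z := !s.z } ↔
      ∀ i < M.n, M.nx (!s.z) (M.nx s.z s.x) i = s.x i := by
  constructor
  · rintro ⟨s', ht', hx', h⟩ i hi
    have hz : (!s.z) = s'.z := congrArg Cont.z h
    have ht : s.t = s'.t := congrArg Cont.t h
    have hw : ∀ b, (M.cont R s).w b = (M.cont R s').w b := fun b => congrFun (congrArg Cont.w h) b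
    have hv : ∀ y < 2 ^ M.k, M.val (M.nx s.z s.x) y = M.val s'.x y := fun y hy => by
      have h1 := bank_of_w R hM (hw (!s.z)) hy
      rw [bank_nz, hs, decide_eq_true hy, Bool.true_and, hz, bank_z] at h1
      exact h1
    have hv' : ∀ y < 2 ^ M.k, M.val s.x y = M.val (M.nx s'.z s'.x) y := fun y hy => by
      have h1 := bank_of_w R hM (hw s.z) hy
      have h2 : s.z = !s'.z := by rw [← hz, Bool.not_not]
      rw [bank_z, h2, bank_nz, ← ht, hs, decide_eq_true hy, Bool.true_and] at h1
      exact h1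
    have h4 : 4 * i < 2 ^ M.k := by have := hM.hnk; omega
    have h5 := hv' (4 * i) h4
    rw [val_input hi, val_input hi] at h5
    rw [h5]
    unfold MP.nx at hv ⊢
    rw [hz]
    exact hv _ (Nat.xor_lt_two_pow h4 (hM.off_lt _))
  · intro h
    exact ⟨⟨!s.z, fun i => decide (i < M.n) && M.nx s.z s.x i, 2 ^ M.k⟩, le_rfl,
      fun i hi => by simp [not_lt.2 hi], flip_eq R hM s hs h⟩

/-- **[UPD]** -/
theorem upd (hM : M.Good) : M.Upd R where
  fill s hs := fill R hM s hs
  erase s h0 hs := erase R hM s h0 hs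
  swap s hs := swap R hM s hs
  flip s hs := flip R s hs
  flip_valid s hs _ := flip_valid R hM s hs
  flip_eq s hs h := flip_eq R hM s hs h
  inj s s' _ _ hx hx' h := inj R hM s s' hx hx' h

end Vale.Agent.P330.H743
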